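import Vale.Agent.P092.H862.Uq6

/-!
P092, Team D, block [D-XC], row [XC-3] (helper862): **uniqueness of the boundary map**.
-/

set_option linter.all false

open scoped InnerProductSpace ENNReal ZeroAtInfty Pointwise
open Filter Topology ContinuousLinearMap MeasureTheory

namespace Vale.Agent.P092.H862

open Vale.Agent.P092.RC (Cm TRN)
open Vale.Agent.P092.H295

variable {G Γ : Type} [Group G] [TopologicalSpace G] [IsTopologicalGroup G] [T2Space G]
  [LocallyCompactSpace G] [SecondCountableTopology G] [MeasurableSpace G] [BorelSpace G] [Group Γ]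
variable {K : Type} [NormedAddCommGroup K] [InnerProductSpace ℂ K] [CompleteSpace K]
variable {P : Type} [TopologicalSpace P] [CompactSpace P] [T2Space P] [MulAction G P]
  [ContinuousSMul G P]
variable {μ : Measure G} {π : G →* (K →L[ℂ] K)} {lam : Γ →* (K →L[ℂ] K)}
  {W : Set (K →L[ℂ] K)} {Ω : K} {q : Γ →* G} {Φ : C₀(G, ℂ) →⋆ₙₐ[ℂ] (K →L[ℂ] K)}
variable {u : G} {E : C(P, ℂ) →ₗ[ℂ] (K →L[ℂ] K)}

theorem exists_lim_real (𝒰 : Ultrafilter ℕ) (a : ℕ → ℝ) (C : ℝ) (h : ∀ i, |a i| ≤ C) :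
    ∃ z, Tendsto a 𝒰 (𝓝 z) := by
  obtain ⟨z, hz⟩ := H325.exists_lim_complex 𝒰 (fun i => ((a i : ℝ) : ℂ)) C (fun i => by
    rw [Complex.norm_real]; exact h i)
  exact ⟨z.re, ((Complex.continuous_re.tendsto z).comp hz).congr fun i => Complex.ofReal_re _⟩

/-- **the states of the bumps converge to the Dirac measure at the attracting point** -/
theorem Lg.al_lim [μ.IsHaarMeasure] [μ.IsMulRightInvariant] (h : Lg μ π lam W Ω q Φ)
    (hE : Mp π lam W q u E) {c : ℕ → C₀(G, ℂ)} (hc : Bumps μ u c) {y : P}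
    (hy : ∀ ξ : P, Tendsto (fun j : ℕ => u ^ j • ξ) atTop (𝓝 y)) (𝒰 : Ultrafilter ℕ)
    (h𝒰 : (𝒰 : Filter ℕ) ≤ atTop) (k : C(P, ℝ)) :
    Tendsto (fun n => al μ Φ Ω E (c n) k) 𝒰 (𝓝 (k y)) := by
  have b1 : ∀ n, ∫⁻ g, ‖c n g‖ₑ ^ 2 ∂μ ≤ ENNReal.ofReal (1 ^ 2) := fun n => by
    rw [hc.one n]; simp
  choose L hL using fun k : C(P, ℝ) => exists_lim_real 𝒰 (fun n => al μ Φ Ω E (c n) k) ‖k‖
    (fun n => h.al_bd hE.up (hc.hcs n) (b1 n) k)
  have hadd : ∀ a b, L (a + b) = L a + L b := by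
    intro a b
    refine tendsto_nhds_unique (hL (a + b)) (((hL a).add (hL b)).congr fun n => ?_)
    exact (h.al_add hE.up (hc.hcs n) (b1 n) a b).symm
  have hsmul : ∀ (t : ℝ) a, L (t • a) = t * L a := by
    intro t a
    refine tendsto_nhds_unique (hL (t • a)) (((hL a).const_mul t).congr fun n => ?_)
    exact (Lg.al_smul (c n) t a).symm
  have hpos : ∀ a, 0 ≤ a → 0 ≤ L a := by
    intro a ha
    exact ge_of_tendsto (hL a) (Eventually.of_forall fun n => Lg.al_nonneg hE.up (c n) fun x => ha x)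
  have hone : L 1 = 1 := by
    refine tendsto_nhds_unique (hL 1) (tendsto_const_nhds.congr fun n => ?_)
    exact (h.al_one hE.up (hc.hcs n) (hc.one n)).symm
  obtain ⟨s, hs0, hs1, hs2⟩ := hc.inv
  have hinv : ∀ a : C(P, ℝ), L (a.comp ⟨fun x => u • x, continuous_const_smul u⟩) = L a := by
    intro a
    set a' : C(P, ℝ) := a.comp ⟨fun x => u • x, continuous_const_smul u⟩ with ha'
    have e : tpr u a' = a := by
      ext x
      simp [ha']
    have e1 : ∀ n, al μ Φ Ω E (cj u (c n)) a = al μ Φ Ω E (c n) a' := by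
      intro n
      rw [← h.al_cj hE (hc.hcs n) zero_le_one (b1 n) a', e]
    have h2 : Tendsto (fun n => al μ Φ Ω E (c n) a' - al μ Φ Ω E (c n) a) 𝒰 (𝓝 0) := by
      rw [Metric.tendsto_nhds]
      intro ε hε
      set δ : ℝ := ε / (4 * (‖a‖ + 1)) with hδ
      have hδ0 : 0 < δ := by positivity
      have h3 : Tendsto (fun n => ‖a‖ * (δ⁻¹ * s n ^ 2)) 𝒰 (𝓝 (‖a‖ * (δ⁻¹ * 0))) :=
        ((hs1.mono_left h𝒰).const_mul _).const_mul _
      rw [mul_zero, mul_zero] at h3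
      filter_upwards [h3.eventually (gt_mem_nhds (show (0 : ℝ) < ε / 2 by positivity))] with n hn
      have hcj : HasCompactSupport (cj u (c n)) := H295.hcs_cj (hc.hcs n) u
      have hcd : HasCompactSupport (cj u (c n) - c n) := by
        have := hcj.sub (hc.hcs n)
        exact this
      have b2 : ∫⁻ g, ‖cj u (c n) g‖ₑ ^ 2 ∂μ ≤ ENNReal.ofReal (1 ^ 2) := by
        have e2 : ∫⁻ g, ‖cj u (c n) g‖ₑ ^ 2 ∂μ = ∫⁻ g, ‖c n g‖ₑ ^ 2 ∂μ := by
          have e3 := lintegral_mul_left_eq_self (μ := μ) (fun g => ‖c n (g * u)‖ₑ ^ 2) u⁻¹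
          have e4 := lintegral_mul_right_eq_self (μ := μ) (fun g => ‖c n g‖ₑ ^ 2) u
          rw [← e4, ← e3]
          refine lintegral_congr fun g => ?_
          rw [cj_apply, mul_assoc]
        rw [e2]
        exact b1 n
      have h4 := h.al_close hE.up (hc.hcs n) hcj hcd (hs0 n) (b1 n) b2 (hs2 n) a hδ0
      rw [e1] at h4
      rw [Real.dist_eq, sub_zero]
      have h5 : ‖a‖ * (δ * 2) ≤ ε / 2 := by
        rw [hδ]
        rw [show ‖a‖ * (ε / (4 * (‖a‖ + 1)) * 2) = (‖a‖ / (‖a‖ + 1)) * (ε / 2) by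
          field_simp; ring]
        have h6 : ‖a‖ / (‖a‖ + 1) ≤ 1 := (div_le_one (by positivity)).2 (by linarith [norm_nonneg a])
        nlinarith
      calc _ ≤ ‖a‖ * (δ⁻¹ * s n ^ 2 + δ * 2) := h4
        _ = ‖a‖ * (δ⁻¹ * s n ^ 2) + ‖a‖ * (δ * 2) := by ring
        _ < ε := by linarith
    have h3 := tendsto_nhds_unique ((hL a').sub (hL a)) h2
    linarith
  have h4 := H325.state_eq_fun L hadd hsmul hpos hone u hinv y hy k
  rw [← h4]
  exact hL k

/-- **uniqueness of the boundary map**, on vectors of compact support -/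
theorem Lg.uq₀ [Countable Γ] [μ.IsHaarMeasure] [μ.IsMulRightInvariant] (h : Lg μ π lam W Ω q Φ)
    (hN : ∀ C : Set G, IsCompact C → ∃ N : ℕ, ∀ g, ∑' γ, C.indicator (1 : G → ℝ≥0∞) (q γ * g) ≤ N)
    {y : P} (hy : ∀ ξ : P, Tendsto (fun j : ℕ => u ^ j • ξ) atTop (𝓝 y))
    (hE : Mp π lam W q u E) (f : C(P, ℂ)) (b b' : C₀(G, ℂ)) (hb : HasCompactSupport b)
    (hbb : ∀ x, b' x = f (x • y) * b x) : E f * Φ b = Φ b' := by
  obtain ⟨c, hc⟩ := exists_bumps μ u
  obtain ⟨V, hV1, hV2⟩ := exists_compact_mem_nhds (1 : G)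
  set C : Set G := tsupport b * V⁻¹ with hC
  have hCc : IsCompact C := hb.isCompact.mul hV1.inv
  have hCm : MeasurableSet C := hCc.measurableSet
  obtain ⟨N, hN⟩ := hN C hCc
  obtain ⟨k, hk0, hky, hk1, -⟩ := H715.Xc6.exists_osc hCc f y
  have hD : Cm W (E f * Φ b - Φ b') := cm_sub (cm_mul (hE.cm f) (h.cm b)) (h.cm b')
  set 𝒰 : Ultrafilter ℕ := hyperfilter ℕ with h𝒰
  have h𝒰' : (𝒰 : Filter ℕ) ≤ atTop := by
    rw [h𝒰, ← Nat.cofinite_eq_atTop]
    exact hyperfilter_le_cofinite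
  have hlim := h.al_lim hE hc hy 𝒰 h𝒰' k
  rw [hky] at hlim
  have key : ∀ ω : ℝ, 0 < ω → TRN lam Ω (E f * Φ b - Φ b') ≤
      ENNReal.ofReal (2 * (ω ^ 2 * N)) := by
    intro ω hω
    have hO : ∀ᶠ s in 𝓝 (1 : G), ∀ g ∈ C, ‖f (g • y) * b (g * s) - b' (g * s)‖ < ω := by
      refine hCc.eventually_forall_of_forall_eventually fun g _ => ?_
      have hcont : Continuous fun p : G × G =>
          ‖f (p.2 • y) * b (p.2 * p.1) - b' (p.2 * p.1)‖ := by fun_prop
      have h0 : ‖f (g • y) * b (g * 1) - b' (g * 1)‖ = 0 := by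
        rw [mul_one, hbb, sub_self, norm_zero]
      have := hcont.tendsto ((1 : G), g)
      simp only at this
      rw [h0] at this
      exact this.eventually (gt_mem_nhds hω)
    have hev : ∀ᶠ n in (𝒰 : Filter ℕ), TRN lam Ω (E f * Φ b - Φ b') ≤
        ENNReal.ofReal (2 * (‖Φ b‖ ^ 2 * (N * al μ Φ Ω E (c n) k)) + 2 * (ω ^ 2 * N)) := by
      have h1 := h𝒰' (hc.small _ hO)
      have h2 := h𝒰' (hc.small V hV2)
      filter_upwards [h1, h2] with n hn1 hn2
      have b1 : ∫⁻ g, ‖c n g‖ₑ ^ 2 ∂μ ≤ ENNReal.ofReal (1 ^ 2) := by rw [hc.one n]; simp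
      have h3 := h.trn_le hE (c := c n) (b := b) (b' := b') (f := f) (k := k) (y := y) (ω := ω)
        (C := C) (N := N) (hc.hcs n) (hc.real n) (hc.one n) hCm hN hω.le hk1
        (fun g hg x hx => by
          have h4 := hn1 (g⁻¹ * x) hx g hg
          rw [mul_inv_cancel_left] at h4
          exact h4.le)
        (fun g hg x hx => by
          have h5 : b x = 0 := by
            by_contra h0
            apply hg
            refine ⟨x, subset_tsupport _ h0, (g⁻¹ * x)⁻¹, Set.inv_mem_inv.2 (hn2 _ hx), ?_⟩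
            simp
          exact ⟨h5, by rw [hbb, h5, mul_zero]⟩)
      have h4 : ∫⁻ g, ENNReal.ofReal (dn Φ Ω E (c n) k g) ∂μ =
          ENNReal.ofReal (al μ Φ Ω E (c n) k) := by
        unfold al
        rw [ofReal_integral_eq_lintegral_ofReal (h.int_dn hE.up (hc.hcs n) zero_le_one b1 k)
          (Eventually.of_forall fun g => dn_nonneg hE.up (c n) hk0 g)]
      rw [h4] at h3
      refine h3.trans (le_of_eq ?_)
      have h5 : 0 ≤ al μ Φ Ω E (c n) k := Lg.al_nonneg hE.up (c n) hk0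
      rw [ENNReal.ofReal_add (by positivity) (by positivity), ENNReal.ofReal_mul zero_le_two,
        ENNReal.ofReal_mul zero_le_two, ENNReal.ofReal_mul (by positivity),
        ENNReal.ofReal_mul (by positivity), ENNReal.ofReal_mul (by positivity),
        ENNReal.ofReal_pow (norm_nonneg _), ofReal_norm_eq_enorm, ENNReal.ofReal_pow hω.le,
        ENNReal.ofReal_natCast, ENNReal.ofReal_ofNat]
    have hlim2 : Tendsto (fun n => ENNReal.ofReal (2 * (‖Φ b‖ ^ 2 * (N * al μ Φ Ω E (c n) k)) +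
        2 * (ω ^ 2 * N))) 𝒰 (𝓝 (ENNReal.ofReal (2 * (‖Φ b‖ ^ 2 * (N * 0)) + 2 * (ω ^ 2 * N)))) :=
      (ENNReal.continuous_ofReal.tendsto _).comp
        ((((hlim.const_mul _).const_mul _).const_mul _).add_const _)
    have h6 := ge_of_tendsto hlim2 hev
    simpa using h6
  have hz : TRN lam Ω (E f * Φ b - Φ b') = 0 := by
    have h7 : Tendsto (fun n : ℕ => ENNReal.ofReal (2 * ((1 / ((n : ℝ) + 1)) ^ 2 * N))) atTop
        (𝓝 (ENNReal.ofReal (2 * ((0 : ℝ) ^ 2 * N)))) :=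
      (ENNReal.continuous_ofReal.tendsto _).comp
        (((tendsto_one_div_add_atTop_nhds_zero_nat.pow 2).mul_const _).const_mul _)
    have h8 := ge_of_tendsto h7 (Eventually.of_forall fun n => key (1 / ((n : ℝ) + 1)) (by positivity))
    simpa using h8
  exact sub_eq_zero.1 (h.tr_zero _ hD hz)

/-- **uniqueness of the boundary map** -/
theorem uq [Countable Γ] [μ.IsHaarMeasure] [μ.IsMulRightInvariant] (h : Lg μ π lam W Ω q Φ)
    (hnd : ∀ ξ, (∀ c, Φ c ξ = 0) → ξ = 0)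
    (hN : ∀ C : Set G, IsCompact C → ∃ N : ℕ, ∀ g, ∑' γ, C.indicator (1 : G → ℝ≥0∞) (q γ * g) ≤ N)
    {y : P} (hy : ∀ ξ : P, Tendsto (fun j : ℕ => u ^ j • ξ) atTop (𝓝 y))
    (hE : Mp π lam W q u E) (F : C(P, ℂ) → (K →L[ℂ] K))
    (hF : ∀ f (b b' : C₀(G, ℂ)), (∀ x, b' x = f (x • y) * b x) → F f * Φ b = Φ b') :
    ∀ f, E f = F f := by
  intro f
  have hd : Dense (H295.cs Φ : Set K) := H295.dense_cs hnd
  refine ContinuousLinearMap.ext fun ξ => ?_
  refine congrFun (Continuous.ext_on hd (E f).continuous (F f).continuous ?_) ξ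
  rintro v ⟨b, hb, hv⟩
  let b' : C₀(G, ℂ) := ⟨⟨fun x => f (x • y) * b x, by fun_prop⟩, by
    have : HasCompactSupport fun x => f (x • y) * b x := hb.mul_left
    exact this.is_zero_at_infty⟩
  have h1 := h.uq₀ hN hy hE f b b' hb (fun x => rfl)
  have h2 := hF f b b' (fun x => rfl)
  have h3 := congrArg (fun T : K →L[ℂ] K => T v) (h1.trans h2.symm)
  change E f (Φ b v) = F f (Φ b v) at h3
  rwa [hv] at h3

end Vale.Agent.P092.H862
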