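import Vale.Agent.P092.H862.Uq5
import Vale.Agent.P092.H626.Bump
import Vale.Agent.P092.H325.UltraP
import Vale.Agent.P092.H715.Xc6
import Vale.Agent.P092.H295.Pin

/-!
P092, Team D, block [D-XC], row [XC-3] (helper862): **uniqueness of the boundary map**.
-/

set_option linter.all false

open scoped InnerProductSpace ENNReal ZeroAtInfty
open Filter Topology ContinuousLinearMap MeasureTheory

namespace Vale.Agent.P092.H862

open Vale.Agent.P092.RC (Cm TRN)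
open Vale.Agent.P092.H295

variable {G Γ : Type} [Group G] [TopologicalSpace G] [IsTopologicalGroup G]
  [SecondCountableTopology G] [MeasurableSpace G] [BorelSpace G] [Group Γ]
variable {K : Type} [NormedAddCommGroup K] [InnerProductSpace ℂ K] [CompleteSpace K]
variable {P : Type} [TopologicalSpace P] [CompactSpace P] [MulAction G P] [ContinuousSMul G P]
variable {μ : Measure G} {π : G →* (K →L[ℂ] K)} {lam : Γ →* (K →L[ℂ] K)}
  {W : Set (K →L[ℂ] K)} {Ω : K} {q : Γ →* G} {Φ : C₀(G, ℂ) →⋆ₙₐ[ℂ] (K →L[ℂ] K)}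
variable {u : G} {E : C(P, ℂ) →ₗ[ℂ] (K →L[ℂ] K)}

theorem dn_add (c : C₀(G, ℂ)) (k k' : C(P, ℝ)) (g : G) :
    dn Φ Ω E c (k + k') g = dn Φ Ω E c k g + dn Φ Ω E c k' g := by
  have e : tp g (cx (k + k')) = tp g (cx k) + tp g (cx k') := by
    rw [cx_add]; rfl
  unfold dn
  rw [e, map_add, ContinuousLinearMap.add_apply, inner_add_right, Complex.add_re]

theorem dn_smul (c : C₀(G, ℂ)) (t : ℝ) (k : C(P, ℝ)) (g : G) :
    dn Φ Ω E c (t • k) g = t * dn Φ Ω E c k g := by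
  have e : tp g (cx (t • k)) = (t : ℂ) • tp g (cx k) := by
    rw [cx_smul]; rfl
  unfold dn
  rw [e, map_smul, ContinuousLinearMap.smul_apply, inner_smul_right, Complex.re_ofReal_mul]

theorem dn_one (hE : UP E) (c : C₀(G, ℂ)) (g : G) :
    dn Φ Ω E c (1 : C(P, ℝ)) g = ‖Φ (ltr g c) Ω‖ ^ 2 := by
  have e : tp g (cx (1 : C(P, ℝ))) = 1 := by
    rw [cx_one]; rfl
  unfold dn
  rw [e, hE.one, ContinuousLinearMap.one_apply, inner_self_eq_norm_sq_to_K]
  norm_cast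

theorem dn_le (hE : UP E) (c : C₀(G, ℂ)) (k : C(P, ℝ)) (g : G) :
    ‖dn Φ Ω E c k g‖ ≤ ‖k‖ * ‖Φ (ltr g c) Ω‖ ^ 2 := by
  unfold dn
  rw [Real.norm_eq_abs]
  refine (Complex.abs_re_le_norm _).trans ((norm_inner_le_norm _ _).trans ?_)
  have h1 := hE.norm_le (tp g (cx k)) (Φ (ltr g c) Ω)
  have h2 : ‖tp g (cx k)‖ ≤ ‖k‖ := (norm_tp_le _ _).trans (norm_cx k)
  calc ‖Φ (ltr g c) Ω‖ * ‖E (tp g (cx k)) (Φ (ltr g c) Ω)‖
      ≤ ‖Φ (ltr g c) Ω‖ * (‖k‖ * ‖Φ (ltr g c) Ω‖) := by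
        gcongr
        exact h1.trans (by gcongr)
    _ = _ := by ring

namespace Lg

variable (h : Lg μ π lam W Ω q Φ)
include h

theorem al_bd (hE : UP E) {c : C₀(G, ℂ)} (hc : HasCompactSupport c)
    (h1 : ∫⁻ g, ‖c g‖ₑ ^ 2 ∂μ ≤ ENNReal.ofReal (1 ^ 2)) (k : C(P, ℝ)) :
    |al μ Φ Ω E c k| ≤ ‖k‖ := by
  obtain ⟨i1, j1⟩ := h.int_sq hc zero_le_one h1
  have h2 := norm_integral_le_of_norm_le (i1.const_mul ‖k‖)
    (Eventually.of_forall fun g => dn_le (Φ := Φ) (Ω := Ω) hE c k g)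
  rw [integral_const_mul] at h2
  unfold al
  rw [← Real.norm_eq_abs]
  refine h2.trans ?_
  have : ‖k‖ * ∫ g, ‖Φ (ltr g c) Ω‖ ^ 2 ∂μ ≤ ‖k‖ * 1 := by
    gcongr
    linarith
  linarith

theorem al_add (hE : UP E) {c : C₀(G, ℂ)} (hc : HasCompactSupport c)
    (h1 : ∫⁻ g, ‖c g‖ₑ ^ 2 ∂μ ≤ ENNReal.ofReal (1 ^ 2)) (k k' : C(P, ℝ)) :
    al μ Φ Ω E c (k + k') = al μ Φ Ω E c k + al μ Φ Ω E c k' := by
  unfold al
  rw [← integral_add (h.int_dn hE hc zero_le_one h1 k) (h.int_dn hE hc zero_le_one h1 k')]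
  exact integral_congr_ae (Eventually.of_forall fun g => dn_add c k k' g)

omit h in
theorem al_smul (c : C₀(G, ℂ)) (t : ℝ) (k : C(P, ℝ)) :
    al μ Φ Ω E c (t • k) = t * al μ Φ Ω E c k := by
  unfold al
  rw [← integral_const_mul]
  exact integral_congr_ae (Eventually.of_forall fun g => dn_smul c t k g)

theorem al_one (hE : UP E) {c : C₀(G, ℂ)} (hc : HasCompactSupport c)
    (h1 : ∫⁻ g, ‖c g‖ₑ ^ 2 ∂μ = 1) : al μ Φ Ω E c (1 : C(P, ℝ)) = 1 := by
  have h1' : ∫⁻ g, ‖c g‖ₑ ^ 2 ∂μ ≤ ENNReal.ofReal (1 ^ 2) := by rw [h1]; simp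
  obtain ⟨i1, -⟩ := h.int_sq hc zero_le_one h1'
  unfold al
  simp_rw [dn_one hE]
  have h2 : ENNReal.ofReal (∫ g, ‖Φ (ltr g c) Ω‖ ^ 2 ∂μ) = 1 := by
    rw [ofReal_integral_eq_lintegral_ofReal i1 (Eventually.of_forall fun g => by positivity)]
    have h3 := h.sq c hc Ω
    rw [h1, one_mul, ← ofReal_norm_eq_enorm, h.nΩ, ENNReal.ofReal_one, one_pow] at h3
    rw [← h3]
    refine lintegral_congr fun g => ?_
    rw [← ofReal_norm_eq_enorm, ← ENNReal.ofReal_pow (norm_nonneg _)]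
  rw [← ENNReal.ofReal_one] at h2
  exact (ENNReal.ofReal_eq_ofReal_iff (integral_nonneg fun g => by positivity) zero_le_one).1 h2

omit h in
theorem al_nonneg (hE : UP E) (c : C₀(G, ℂ)) {k : C(P, ℝ)} (hk : ∀ x, 0 ≤ k x) :
    0 ≤ al μ Φ Ω E c k := integral_nonneg fun g => dn_nonneg hE c hk g

end Lg

/-- the bumps -/
structure Bumps (μ : Measure G) (u : G) (c : ℕ → C₀(G, ℂ)) : Prop where
  hcs : ∀ n, HasCompactSupport (c n)
  real : ∀ n, star (c n) = c n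
  one : ∀ n, ∫⁻ g, ‖c n g‖ₑ ^ 2 ∂μ = 1
  small : ∀ O ∈ 𝓝 (1 : G), ∀ᶠ n in atTop, ∀ x, c n x ≠ 0 → x ∈ O
  inv : ∃ s : ℕ → ℝ, (∀ n, 0 ≤ s n) ∧ Tendsto (fun n => s n ^ 2) atTop (𝓝 0) ∧
    ∀ n, ∫⁻ g, ‖(cj u (c n) - c n) g‖ₑ ^ 2 ∂μ ≤ ENNReal.ofReal (s n ^ 2)

theorem lint_sq [IsFiniteMeasureOnCompacts μ] {d : G → ℝ} (hd : Continuous d)
    (hd2 : HasCompactSupport d) :
    ∫⁻ g, ‖((d g : ℝ) : ℂ)‖ₑ ^ 2 ∂μ = ENNReal.ofReal (∫ g, d g ^ 2 ∂μ) := by
  have hc1 : Continuous (fun g => d g ^ 2) := by fun_prop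
  have hc2 : HasCompactSupport (fun g => d g ^ 2) :=
    hd2.comp_left (g := fun t : ℝ => t ^ 2) (by simp)
  have hi : Integrable (fun g => d g ^ 2) μ := hc1.integrable_of_hasCompactSupport hc2
  rw [ofReal_integral_eq_lintegral_ofReal hi (Eventually.of_forall fun g => by positivity)]
  refine lintegral_congr fun g => ?_
  rw [← ofReal_norm_eq_enorm, Complex.norm_real, ← ENNReal.ofReal_pow (norm_nonneg _),
    Real.norm_eq_abs, sq_abs]

theorem exists_bumps [T2Space G] [LocallyCompactSpace G] (μ : Measure G) [μ.IsHaarMeasure]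
    [μ.IsMulRightInvariant] (u : G) : ∃ c : ℕ → C₀(G, ℂ), Bumps μ u c := by
  obtain ⟨c, h1, h2, h3, h4, h5, h6⟩ := H626.Bump.bump_seq μ (fun _ => u) (fun _ _ => Commute.refl u)
  refine ⟨fun n => H626.Bump.up (c n) (h1 n) (h2 n), fun n => ?_, fun n => ?_, fun n => ?_,
    fun O hO => ?_, ?_⟩
  · exact (h2 n).comp_left (g := fun t : ℝ => (t : ℂ)) Complex.ofReal_zero
  · ext x
    exact Complex.conj_ofReal _
  · have := lint_sq (μ := μ) (h1 n) (h2 n)
    rw [h4 n, ENNReal.ofReal_one] at this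
    exact this
  · filter_upwards [h5 O hO] with n hn x hx
    refine hn (subset_tsupport _ ?_)
    intro h0
    apply hx
    rw [H626.Bump.up_apply, h0, Complex.ofReal_zero]
  · refine ⟨fun n => Real.sqrt (∫ x, (c n (u⁻¹ * x * u) - c n x) ^ 2 ∂μ), fun n => Real.sqrt_nonneg _,
      ?_, fun n => ?_⟩
    · refine (h6 0).congr fun n => ?_
      rw [Real.sq_sqrt (integral_nonneg fun x => by positivity)]
    · rw [Real.sq_sqrt (integral_nonneg fun x => by positivity)]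
      have hc' : Continuous fun x => c n (u⁻¹ * x * u) - c n x :=
        ((h1 n).comp (by fun_prop)).sub (h1 n)
      have hs' : HasCompactSupport fun x => c n (u⁻¹ * x * u) - c n x := by
        have e : (fun x => c n (u⁻¹ * x * u)) = (c n) ∘
            ((Homeomorph.mulLeft u⁻¹).trans (Homeomorph.mulRight u)) := by
          funext x; rfl
        have h7 : HasCompactSupport (fun x => c n (u⁻¹ * x * u)) := by
          rw [e]
          exact (h2 n).comp_homeomorph _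
        exact h7.sub (h2 n)
      refine le_of_eq ?_
      rw [← lint_sq hc' hs']
      refine lintegral_congr fun g => ?_
      rw [ZeroAtInftyContinuousMap.sub_apply, cj_apply, H626.Bump.up_apply, H626.Bump.up_apply,
        Complex.ofReal_sub, mul_assoc]

end Vale.Agent.P092.H862
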