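import Vale.Agent.P092.H295.XcFin

/-!
P092, Team D, block [D-XC] (helper862): the cross-leg step from the fields of the two legs only (no
`Xcomm`); two groups `Γ₁`, `Γ₂`; the trace is used in leg 1 only.
-/

set_option linter.all false

open scoped InnerProductSpace ENNReal ZeroAtInfty LinearAlgebra.Projectivization
open Filter Topology ContinuousLinearMap MeasureTheory Measure

namespace Vale.Agent.P092.H862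

open Vale.Agent.P092.RC (Cm)
open Vale.Agent.P092.SD (G3 PP CP tau nm TV Cls)
open Vale.Agent.P092.H295

/-- **[D-XC] from leg fields**: `π`, `lam₁`, `lam₂` unitary; the trace (`RC.Pic`, `TV`) and the
discreteness are used in leg 1 only. -/
theorem xc_legs {Γ₁ Γ₂ K : Type} [Group Γ₁] [Countable Γ₁] [Group Γ₂] [NormedAddCommGroup K]
    [InnerProductSpace ℂ K] [CompleteSpace K] {π : G3 ℝ →* (K →L[ℂ] K)}
    {lam₁ : Γ₁ →* (K →L[ℂ] K)} {lam₂ : Γ₂ →* (K →L[ℂ] K)} {X : Set (K →L[ℂ] K)} {Ω : K}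
    {q₁ : Γ₁ →* G3 ℝ} {q₂ : Γ₂ →* G3 ℝ} {E₁ F₁ E₂ F₂ : PP ℝ → (CP ℝ →⋆ₐ[ℂ] (K →L[ℂ] K))}
    {Q₁ Q₂ : C₀(G3 ℝ, ℂ) →⋆ₙₐ[ℂ] (K →L[ℂ] K)}
    (hP : RC.Pic π lam₁ (X ∪ Set.range lam₂) Ω) (hT : TV π lam₁ (X ∪ Set.range lam₂) Ω)
    (h₂ : ∀ γ, adjoint (lam₂ γ) = lam₂ γ⁻¹) (hf : ∀ C : ℝ, {γ : Γ₁ | nm (q₁ γ) ≤ C}.Finite)
    (hQ₁ : Cls π lam₁ (X ∪ Set.range lam₂) q₁ E₁ F₁ Q₁)
    (hQ₂ : Cls π lam₂ (X ∪ Set.range lam₁) q₂ E₂ F₂ Q₂) (ψ φ : C₀(G3 ℝ, ℂ)) :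
    Commute (Q₁ ψ) (Q₂ φ) := by
  haveI : LocallyCompactSpace (G3 ℝ) := H303.locallyCompact_SL
  haveI : SecondCountableTopology (G3 ℝ) := H303.secondCountable_SL
  letI : MeasurableSpace (G3 ℝ) := borel _
  haveI : BorelSpace (G3 ℝ) := ⟨rfl⟩
  haveI : (haar : Measure (G3 ℝ)).IsMulRightInvariant := rightInv H899.commutator_eq_top _
  refine (genStmt π lam₁ _ q₁ E₁ F₁ Q₁ hQ₁ (Q₂ φ) (fun a f => ?_) ψ).symm
  obtain ⟨N, hN, hNa, hu⟩ := uqStmt π lam₁ _ Ω q₁ E₁ F₁ Q₁ hP hT hf hQ₁ a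
  exact (commute_of_uniq (q₂ := q₂) (ι₂ := MonoidHom.id _) (haar : Measure (G3 ℝ))
    (pt_of_cls hQ₁ a) hQ₂.nd hQ₂.cm
    (fun γ ψ => hQ₂.cov γ ψ _ fun x => rfl) (fun g ψ => hQ₂.pcov g ψ _ fun x => rfl)
    hP.adjP hP.adjL h₂ N hN hNa hu f φ).symm

end Vale.Agent.P092.H862
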