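import Mathlib.Analysis.SpecialFunctions.Log.Base
import Mathlib.Analysis.Complex.Basic
import Mathlib.Data.Int.Log
import Mathlib.Algebra.Order.Floor.Ring
import Mathlib.Algebra.BigOperators.Group.Finset.Sigma
import Mathlib.Algebra.Order.BigOperators.Group.Finset

/-!
P092, TRACK C (helper862 for helper574): two pigeonhole lemmas on dyadic scales.
-/

set_option linter.all false

namespace Vale.Agent.P092.H862.Pig

open Finset

theorem log_two_pos : (0 : ℝ) < Real.log 2 := Real.log_pos (by norm_num)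

theorem le_log {a : ℝ} (ha : 0 < a) : ((Int.log 2 a : ℤ) : ℝ) ≤ Real.log a / Real.log 2 := by
  rw [le_div_iff₀ log_two_pos, ← Real.log_zpow]
  exact Real.log_le_log (zpow_pos (by norm_num) _) (by
    have h := Int.zpow_log_le_self (b := 2) (by norm_num) ha
    exact_mod_cast h)

theorem log_lt {a : ℝ} (ha : 0 < a) : Real.log a / Real.log 2 - 1 < ((Int.log 2 a : ℤ) : ℝ) := by
  have h := Int.lt_zpow_succ_log_self (b := 2) (by norm_num) a
  have h1 : Real.log a < ((Int.log 2 a + 1 : ℤ) : ℝ) * Real.log 2 := by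
    rw [← Real.log_zpow]
    exact Real.log_lt_log ha (by exact_mod_cast h)
  have h2 : Real.log a / Real.log 2 < ((Int.log 2 a + 1 : ℤ) : ℝ) := by
    rwa [div_lt_iff₀ log_two_pos]
  push_cast at h2
  linarith

theorem card_Icc_log {a b : ℝ} (ha : 0 < a) (hb : 0 < b) :
    ((Icc (Int.log 2 a) (Int.log 2 b)).card : ℝ) ≤
      |Real.log b| / Real.log 2 + |Real.log a| / Real.log 2 + 2 := by
  rw [Int.card_Icc]
  have h1 := le_log hb
  have h2 := log_lt ha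
  have h3 : Real.log b / Real.log 2 ≤ |Real.log b| / Real.log 2 :=
    div_le_div_of_nonneg_right (le_abs_self _) log_two_pos.le
  have h4 : -(Real.log a / Real.log 2) ≤ |Real.log a| / Real.log 2 := by
    rw [← neg_div]
    exact div_le_div_of_nonneg_right (neg_le_abs _) log_two_pos.le
  have h5 : 0 ≤ |Real.log b| / Real.log 2 := div_nonneg (abs_nonneg _) log_two_pos.le
  have h6 : 0 ≤ |Real.log a| / Real.log 2 := div_nonneg (abs_nonneg _) log_two_pos.le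
  have h7 : (((Int.log 2 b + 1 - Int.log 2 a).toNat : ℤ) : ℝ) =
      ((max (Int.log 2 b + 1 - Int.log 2 a) 0 : ℤ) : ℝ) := by
    rw [Int.toNat_eq_max]
  have h8 : (((Int.log 2 b + 1 - Int.log 2 a).toNat : ℕ) : ℝ) =
      ((max (Int.log 2 b + 1 - Int.log 2 a) 0 : ℤ) : ℝ) := by
    rw [← h7]
    push_cast
    rfl
  rw [h8]
  push_cast
  refine max_le ?_ (by linarith)
  linarith

theorem zpow_le {s : ℝ} (hs : 0 < s) : (2 : ℝ) ^ Int.log 2 s ≤ s := by
  have h := Int.zpow_log_le_self (b := 2) (by norm_num) hs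
  exact_mod_cast h

theorem lt_zpow {s : ℝ} : s < 2 * (2 : ℝ) ^ Int.log 2 s := by
  have h := Int.lt_zpow_succ_log_self (b := 2) (by norm_num) s
  have h1 : ((2 : ℕ) : ℝ) ^ (Int.log 2 s + 1) = 2 * (2 : ℝ) ^ Int.log 2 s := by
    push_cast
    rw [zpow_add_one₀ (by norm_num)]
    ring
  rwa [h1] at h

/-- elements of the same dyadic scale are comparable -/
theorem comp {s t : ℝ} (hs : 0 < s) (ht : 0 < t) (h : Int.log 2 s = Int.log 2 t) : s ≤ 2 * t := by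
  have h1 := @lt_zpow s
  have h2 := zpow_le ht
  rw [h] at h1
  linarith

theorem floor_mem {x B : ℝ} {M : ℤ} (hM : B ≤ M) (h : |x| ≤ B) : ⌊x⌋ ∈ Icc (-M - 1) M := by
  obtain ⟨h1, h2⟩ := abs_le.1 h
  rw [mem_Icc]
  constructor
  · rw [Int.le_floor]
    push_cast
    linarith
  · have h3 : ((⌊x⌋ : ℤ) : ℝ) ≤ (M : ℝ) := (Int.floor_le x).trans (h2.trans hM)
    exact_mod_cast h3

theorem card_M {B : ℝ} (hB : 0 ≤ B) : ((Icc (-⌈B⌉ - 1) ⌈B⌉).card : ℝ) ≤ 2 * B + 4 := by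
  rw [Int.card_Icc]
  have h0 : (0 : ℤ) ≤ ⌈B⌉ := Int.ceil_nonneg hB
  have h1 : (⌈B⌉ + 1 - (-⌈B⌉ - 1)).toNat = (2 * ⌈B⌉ + 2).toNat := by
    congr 1
    ring
  have h2 : ((2 * ⌈B⌉ + 2).toNat : ℤ) = 2 * ⌈B⌉ + 2 := Int.toNat_of_nonneg (by omega)
  rw [h1]
  have h3 : (((2 * ⌈B⌉ + 2).toNat : ℕ) : ℝ) = 2 * (⌈B⌉ : ℝ) + 2 := by exact_mod_cast h2
  rw [h3]
  have h4 := Int.ceil_lt_add_one B
  linarith

theorem inv_log_two : 1 / Real.log 2 ≤ 2 := by
  rw [div_le_iff₀ log_two_pos]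
  have h := Real.one_sub_inv_le_log_of_pos (show (0 : ℝ) < 2 by norm_num)
  norm_num at h
  linarith

theorem div_log_le (x : ℝ) (hx : 0 ≤ x) : x / Real.log 2 ≤ 2 * x := by
  have h := mul_le_mul_of_nonneg_left inv_log_two hx
  rw [mul_one_div] at h
  linarith

/-- **(P1)** -/
theorem pig1 {ι : Type*} (C : ℝ) (hC : 1 ≤ C) (N : ℕ) :
    ∃ K : ℝ, 0 ≤ K ∧ ∀ W : ℝ, 0 < W → W ≤ C → ∀ (T : Finset ι) (s : ι → ℝ) (q : ι → ℂ),
      (∀ i ∈ T, 0 < s i ∧ s i ≤ C ∧ W ≤ C * s i ∧ ‖q i‖ * (W * s i) ≤ C) →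
      (∀ T' ⊆ T, (∀ i ∈ T', ∀ j ∈ T', s i ≤ 2 * s j ∧ ‖q i - q j‖ * (s i * s j) ≤ 1) →
        T'.card ≤ N) →
      (T.card : ℝ) * W ^ 2 ≤ K * (1 + |Real.log W|) := by
  classical
  have hC0 : 0 < C := lt_of_lt_of_le one_pos hC
  have hlC : 0 ≤ Real.log C := Real.log_nonneg hC
  refine ⟨(N : ℝ) * (20 * C ^ 2) ^ 2 * (4 * Real.log C + 2), by positivity, ?_⟩
  intro W hW hWC T s q hT hN
  set f : ι → ℤ × ℤ × ℤ := fun i =>
    (Int.log 2 (s i), ⌊(q i).re * (8 * (4 : ℝ) ^ Int.log 2 (s i))⌋,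
      ⌊(q i).im * (8 * (4 : ℝ) ^ Int.log 2 (s i))⌋) with hf
  have h4 : ∀ n : ℤ, (4 : ℝ) ^ n = (2 : ℝ) ^ n * (2 : ℝ) ^ n := by
    intro n
    rw [← mul_zpow]
    norm_num
  set B : ℝ := 8 * C ^ 2 / W with hB
  have hB0 : 0 ≤ B := by positivity
  -- fibres
  have hfib : ∀ a ∈ T.image f, (T.filter fun x => f x = a).card ≤ N := by
    intro a _
    refine hN _ (filter_subset _ _) ?_
    intro i hi j hj
    rw [mem_filter] at hi hj
    obtain ⟨hi, hia⟩ := hi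
    obtain ⟨hj, hja⟩ := hj
    have hij : f i = f j := hia.trans hja.symm
    simp only [hf, Prod.mk.injEq] at hij
    obtain ⟨e1, e2, e3⟩ := hij
    obtain ⟨si, -, -, -⟩ := hT i hi
    obtain ⟨sj, -, -, -⟩ := hT j hj
    refine ⟨comp si sj e1, ?_⟩
    rw [← e1] at e2 e3
    have hp : (0 : ℝ) < (2 : ℝ) ^ Int.log 2 (s i) := zpow_pos (by norm_num) _
    have hq : (0 : ℝ) < 8 * (4 : ℝ) ^ Int.log 2 (s i) := by
      rw [h4]
      positivity
    have r1 := Int.abs_sub_lt_one_of_floor_eq_floor e2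
    have r2 := Int.abs_sub_lt_one_of_floor_eq_floor e3
    rw [← sub_mul, abs_mul, abs_of_pos hq] at r1 r2
    have h5 : ‖q i - q j‖ ≤ |(q i).re - (q j).re| + |(q i).im - (q j).im| := by
      have := Complex.norm_le_abs_re_add_abs_im (q i - q j)
      rwa [Complex.sub_re, Complex.sub_im] at this
    have h6 : ‖q i - q j‖ * (8 * (4 : ℝ) ^ Int.log 2 (s i)) ≤ 2 := by
      have := mul_le_mul_of_nonneg_right h5 hq.le
      rw [add_mul] at this
      linarith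
    have h7 : s i * s j ≤ 4 * (4 : ℝ) ^ Int.log 2 (s i) := by
      have a1 := (@lt_zpow (s i)).le
      have a2 := (@lt_zpow (s j)).le
      rw [← e1] at a2
      rw [h4]
      calc s i * s j ≤ (2 * 2 ^ Int.log 2 (s i)) * (2 * 2 ^ Int.log 2 (s i)) :=
            mul_le_mul a1 a2 sj.le (by positivity)
        _ = 4 * (2 ^ Int.log 2 (s i) * 2 ^ Int.log 2 (s i)) := by ring
    calc ‖q i - q j‖ * (s i * s j) ≤ ‖q i - q j‖ * (4 * (4 : ℝ) ^ Int.log 2 (s i)) :=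
          mul_le_mul_of_nonneg_left h7 (norm_nonneg _)
      _ = ‖q i - q j‖ * (8 * (4 : ℝ) ^ Int.log 2 (s i)) / 2 := by ring
      _ ≤ 1 := by linarith
  -- keys
  have himg : T.image f ⊆ Icc (Int.log 2 (W / C)) (Int.log 2 C) ×ˢ
      (Icc (-⌈B⌉ - 1) ⌈B⌉ ×ˢ Icc (-⌈B⌉ - 1) ⌈B⌉) := by
    intro a ha
    obtain ⟨i, hi, rfl⟩ := mem_image.1 ha
    obtain ⟨h1, h2, h3, h5⟩ := hT i hi
    have hp : (0 : ℝ) < (2 : ℝ) ^ Int.log 2 (s i) := zpow_pos (by norm_num) _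
    have hq : (0 : ℝ) ≤ 8 * (4 : ℝ) ^ Int.log 2 (s i) := by
      rw [h4]
      positivity
    have h6 : ‖q i‖ * (8 * (4 : ℝ) ^ Int.log 2 (s i)) ≤ B := by
      have a1 : (4 : ℝ) ^ Int.log 2 (s i) ≤ s i * C := by
        rw [h4]
        exact mul_le_mul (zpow_le h1) ((zpow_le h1).trans h2) hp.le h1.le
      rw [hB, le_div_iff₀ hW]
      calc ‖q i‖ * (8 * (4 : ℝ) ^ Int.log 2 (s i)) * W ≤ ‖q i‖ * (8 * (s i * C)) * W := by
            gcongr
        _ = (‖q i‖ * (W * s i)) * (8 * C) := by ring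
        _ ≤ C * (8 * C) := by gcongr
        _ = 8 * C ^ 2 := by ring
    have h7 : ∀ x : ℝ, |x| ≤ ‖q i‖ → |x * (8 * (4 : ℝ) ^ Int.log 2 (s i))| ≤ B := by
      intro x hx
      rw [abs_mul, abs_of_nonneg hq]
      exact (mul_le_mul_of_nonneg_right hx hq).trans h6
    simp only [hf, mem_product]
    refine ⟨?_, floor_mem (Int.le_ceil B) (h7 _ (Complex.abs_re_le_norm _)),
      floor_mem (Int.le_ceil B) (h7 _ (Complex.abs_im_le_norm _))⟩
    rw [mem_Icc]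
    refine ⟨Int.log_mono_right (by positivity) ?_, Int.log_mono_right h1 h2⟩
    rw [div_le_iff₀ hC0]
    linarith
  have hcard := card_le_mul_card_image T N hfib
  have hk := card_le_card himg
  rw [card_product, card_product] at hk
  have k1 : ((Icc (Int.log 2 (W / C)) (Int.log 2 C)).card : ℝ) ≤
      (4 * Real.log C + 2) * (1 + |Real.log W|) := by
    refine (card_Icc_log (by positivity) hC0).trans ?_
    have e1 : |Real.log (W / C)| ≤ |Real.log W| + Real.log C := by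
      rw [Real.log_div hW.ne' hC0.ne']
      refine (abs_sub _ _).trans ?_
      rw [abs_of_nonneg hlC]
    have e2 := div_log_le |Real.log (W / C)| (abs_nonneg _)
    have e3 := div_log_le |Real.log C| (abs_nonneg _)
    rw [abs_of_nonneg hlC] at e3 ⊢
    have e4 : 0 ≤ Real.log C * |Real.log W| := mul_nonneg hlC (abs_nonneg _)
    nlinarith [abs_nonneg (Real.log W)]
  have k2 : ((Icc (-⌈B⌉ - 1) ⌈B⌉).card : ℝ) ≤ 20 * C ^ 2 / W := by
    refine (card_M hB0).trans ?_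
    rw [hB, le_div_iff₀ hW]
    have : W ≤ C ^ 2 := by nlinarith
    field_simp
    nlinarith
  have k3 : (T.card : ℝ) ≤ N * (((Icc (Int.log 2 (W / C)) (Int.log 2 C)).card : ℝ) *
      (((Icc (-⌈B⌉ - 1) ⌈B⌉).card : ℝ) * ((Icc (-⌈B⌉ - 1) ⌈B⌉).card : ℝ))) := by
    have := hcard.trans (Nat.mul_le_mul_left N hk)
    exact_mod_cast this
  have k4 : (T.card : ℝ) ≤ N * (((4 * Real.log C + 2) * (1 + |Real.log W|)) *
      ((20 * C ^ 2 / W) * (20 * C ^ 2 / W))) := by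
    refine k3.trans ?_
    gcongr
  calc (T.card : ℝ) * W ^ 2 ≤ (N * (((4 * Real.log C + 2) * (1 + |Real.log W|)) *
        ((20 * C ^ 2 / W) * (20 * C ^ 2 / W)))) * W ^ 2 := by gcongr
    _ = (N : ℝ) * (20 * C ^ 2) ^ 2 * (4 * Real.log C + 2) * (1 + |Real.log W|) := by
      field_simp

/-- **(P2)** -/
theorem pig2 {ι : Type*} (c K : ℝ) (hc : 0 < c) (hK : 0 ≤ K) :
    ∃ C' : ℝ, 0 ≤ C' ∧ ∀ J : ℝ, 0 ≤ J → ∀ (T : Finset ι) (A w f : ι → ℝ),
      (∀ i ∈ T, c ≤ A i ∧ Real.log (A i) ≤ J ∧ 0 < w i ∧ 1 ≤ w i * max 1 (A i) ∧ w i ≤ 4) →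
      (∀ T' ⊆ T, (∀ i ∈ T', ∀ j ∈ T', A i ≤ 2 * A j ∧ w i ≤ 2 * w j) →
        ∑ i ∈ T', f i ≤ K * (1 + J)) →
      ∑ i ∈ T, f i ≤ C' * (1 + J) ^ 3 := by
  classical
  refine ⟨K * (2 * |Real.log c| + 4) * (2 * Real.log 4 + 4),
    by have := Real.log_nonneg (show (1 : ℝ) ≤ 4 by norm_num); positivity, ?_⟩
  intro J hJ T A w f hT hf
  set g : ι → ℤ × ℤ := fun i => (Int.log 2 (A i), Int.log 2 (w i)) with hg
  set S : Finset (ℤ × ℤ) := Icc (Int.log 2 c) (Int.log 2 (Real.exp J)) ×ˢ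
    Icc (Int.log 2 (Real.exp (-J))) (Int.log 2 (4 : ℝ)) with hS
  have hmap : ∀ i ∈ T, g i ∈ S := by
    intro i hi
    obtain ⟨h1, h2, h3, h4, h5⟩ := hT i hi
    have hA : 0 < A i := lt_of_lt_of_le hc h1
    have hAe : A i ≤ Real.exp J := by
      rw [← Real.exp_log hA]
      exact Real.exp_le_exp.2 h2
    rw [hS, mem_product, mem_Icc, mem_Icc]
    refine ⟨⟨Int.log_mono_right hc h1, Int.log_mono_right hA hAe⟩,
      Int.log_mono_right (Real.exp_pos _) ?_, Int.log_mono_right h3 h5⟩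
    have h6 : max 1 (A i) ≤ Real.exp J := max_le (Real.one_le_exp hJ) hAe
    have h7 : 1 ≤ w i * Real.exp J := h4.trans (mul_le_mul_of_nonneg_left h6 h3.le)
    rw [Real.exp_neg, inv_le_iff_one_le_mul₀ (Real.exp_pos _)]
    exact h7
  rw [← sum_fiberwise_of_maps_to hmap]
  have h1 : ∀ k ∈ S, ∑ i ∈ T with g i = k, f i ≤ K * (1 + J) := by
    intro k _
    refine hf _ (filter_subset _ _) ?_
    intro i hi j hj
    rw [mem_filter] at hi hj
    have hij : g i = g j := hi.2.trans hj.2.symm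
    simp only [hg, Prod.mk.injEq] at hij
    obtain ⟨a1, -, a3, -, -⟩ := hT i hi.1
    obtain ⟨b1, -, b3, -, -⟩ := hT j hj.1
    exact ⟨comp (lt_of_lt_of_le hc a1) (lt_of_lt_of_le hc b1) hij.1, comp a3 b3 hij.2⟩
  have hcS : (S.card : ℝ) ≤ ((2 * |Real.log c| + 4) * (1 + J)) * ((2 * Real.log 4 + 4) * (1 + J)) := by
    have hl4 : 0 ≤ Real.log 4 := Real.log_nonneg (by norm_num)
    rw [hS, card_product, Nat.cast_mul]
    refine mul_le_mul ?_ ?_ (Nat.cast_nonneg _) (by positivity)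
    · refine (card_Icc_log hc (Real.exp_pos _)).trans ?_
      rw [Real.log_exp, abs_of_nonneg hJ]
      have e1 := div_log_le |Real.log c| (abs_nonneg _)
      have e2 := div_log_le J hJ
      have e3 : 0 ≤ |Real.log c| * J := mul_nonneg (abs_nonneg _) hJ
      nlinarith
    · refine (card_Icc_log (Real.exp_pos _) (by norm_num)).trans ?_
      rw [Real.log_exp, abs_neg, abs_of_nonneg hJ, abs_of_nonneg hl4]
      have e1 := div_log_le (Real.log 4) hl4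
      have e2 := div_log_le J hJ
      have e3 : 0 ≤ Real.log 4 * J := mul_nonneg hl4 hJ
      nlinarith
  calc ∑ k ∈ S, ∑ i ∈ T with g i = k, f i ≤ ∑ k ∈ S, K * (1 + J) := sum_le_sum h1
    _ = (S.card : ℝ) * (K * (1 + J)) := by rw [sum_const, nsmul_eq_mul]
    _ ≤ (((2 * |Real.log c| + 4) * (1 + J)) * ((2 * Real.log 4 + 4) * (1 + J))) * (K * (1 + J)) :=
      mul_le_mul_of_nonneg_right hcS (by positivity)
    _ = K * (2 * |Real.log c| + 4) * (2 * Real.log 4 + 4) * (1 + J) ^ 3 := by ring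

end Vale.Agent.P092.H862.Pig
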