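import Vale.Agent.P092.H862.UqR
import Vale.Agent.P092.H958.AmpD

/-!
P092, Team D, all amplifications (helper862): the uniqueness theorem `H862.uq` with a finite family of
vectors in the place of the trace vector (by the amplification `K ⊗ ℂ^Q` of helper333, helper962).
-/

set_option linter.all false

open scoped InnerProductSpace ENNReal ZeroAtInfty
open Filter Topology ContinuousLinearMap MeasureTheory

namespace Vale.Agent.P092.H862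

open Vale.Agent.P092.RC (Cm TRN TRNF PicF ampH ampW ampO ampS cm_amp cm_ampW amp_comm_iff trn_amp
  inner_ampO norm_one_ampO ampH_ap sum_ampO enorm_sq_KT)
open Vale.Agent.P092.H295
open Vale.Agent.P092.H333.Amp

variable {G Γ : Type} [Group G] [TopologicalSpace G] [IsTopologicalGroup G]
  [SecondCountableTopology G] [MeasurableSpace G] [BorelSpace G] [Group Γ]
variable {K ι : Type} [NormedAddCommGroup K] [InnerProductSpace ℂ K] [CompleteSpace K] [Fintype ι]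
variable {P : Type} [TopologicalSpace P] [CompactSpace P] [MulAction G P] [ContinuousSMul G P]
variable {μ : Measure G} {π : G →* (K →L[ℂ] K)} {lam : Γ →* (K →L[ℂ] K)}
  {W : Set (K →L[ℂ] K)} {Ω : ι → K} {q : Γ →* G} {Φ : C₀(G, ℂ) →⋆ₙₐ[ℂ] (K →L[ℂ] K)}

/-- `Lg` for a finite family of vectors -/
structure LgF (μ : Measure G) (π : G →* (K →L[ℂ] K)) (lam : Γ →* (K →L[ℂ] K))
    (W : Set (K →L[ℂ] K)) (Ω : ι → K) (q : Γ →* G) (Φ : C₀(G, ℂ) →⋆ₙₐ[ℂ] (K →L[ℂ] K)) : Prop where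
  adjP : ∀ g, adjoint (π g) = π g⁻¹
  adjL : ∀ γ, adjoint (lam γ) = lam γ⁻¹
  Wadj : ∀ w ∈ W, adjoint w ∈ W
  nΩ : ∑ i, ‖Ω i‖ ^ 2 = 1
  tr_adj : ∀ T, Cm W T → TRNF lam Ω (adjoint T) = TRNF lam Ω T
  tr_zero : ∀ T, Cm W T → TRNF lam Ω T = 0 → T = 0
  tv : ∀ Y, Cm W Y → (∀ γ, Y * lam γ = lam γ * Y) → ∀ h,
    ∑ i, ⟪π h (Ω i), Y (π h (Ω i))⟫_ℂ = ∑ i, ⟪Ω i, Y (Ω i)⟫_ℂ
  cm : ∀ c, Cm W (Φ c)
  cov : ∀ γ c, lam γ * Φ c * lam γ⁻¹ = Φ (ltr (q γ) c)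
  pcov : ∀ h c, π h * Φ c * π h⁻¹ = Φ (rtr h c)
  sq : ∀ c : C₀(G, ℂ), HasCompactSupport c → ∀ ξ,
    ∫⁻ g, ‖Φ (ltr g c) ξ‖ₑ ^ 2 ∂μ = (∫⁻ g, ‖c g‖ₑ ^ 2 ∂μ) * ‖ξ‖ₑ ^ 2

/-- what the uniqueness theorem uses of the picture of leg 1: no ergodicity, no `inv` -/
structure PicU {G Γ K ι : Type} [Group G] [Group Γ] [NormedAddCommGroup K] [InnerProductSpace ℂ K]
    [CompleteSpace K] [Fintype ι] (π : G →* (K →L[ℂ] K)) (lam : Γ →* (K →L[ℂ] K))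
    (W : Set (K →L[ℂ] K)) (Ω : ι → K) : Prop where
  adjP : ∀ g, adjoint (π g) = π g⁻¹
  adjL : ∀ γ, adjoint (lam γ) = lam γ⁻¹
  Wadj : ∀ w ∈ W, adjoint w ∈ W
  nΩ : ∑ i, ‖Ω i‖ ^ 2 = 1
  tr_adj : ∀ T, Cm W T → TRNF lam Ω (adjoint T) = TRNF lam Ω T
  tr_zero : ∀ T, Cm W T → TRNF lam Ω T = 0 → T = 0
  tv : ∀ Y, Cm W Y → (∀ γ, Y * lam γ = lam γ * Y) → ∀ h,
    ∑ i, ⟪π h (Ω i), Y (π h (Ω i))⟫_ℂ = ∑ i, ⟪Ω i, Y (Ω i)⟫_ℂ

section amp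

variable {Q : Type} [Group Q] [Fintype Q]

/-- `Φ ⊗ 1` -/
noncomputable def ampN (Q : Type) [Group Q] [Fintype Q] (Φ : C₀(G, ℂ) →⋆ₙₐ[ℂ] (K →L[ℂ] K)) :
    C₀(G, ℂ) →⋆ₙₐ[ℂ] (KT Q K →L[ℂ] KT Q K) :=
  (NonUnitalStarAlgHomClass.toNonUnitalStarAlgHom (ampS Q K)).comp Φ

theorem ampN_ap (Φ : C₀(G, ℂ) →⋆ₙₐ[ℂ] (K →L[ℂ] K)) (c : C₀(G, ℂ)) :
    ampN Q Φ c = amp (Φ c) := rfl

/-- `E ⊗ 1` -/
noncomputable def ampL (Q : Type) [Group Q] [Fintype Q] (E : C(P, ℂ) →ₗ[ℂ] (K →L[ℂ] K)) :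
    C(P, ℂ) →ₗ[ℂ] (KT Q K →L[ℂ] KT Q K) :=
  (ampS Q K).toAlgHom.toLinearMap ∘ₗ E

theorem ampL_ap (E : C(P, ℂ) →ₗ[ℂ] (K →L[ℂ] K)) (f : C(P, ℂ)) : ampL Q E f = amp (E f) := rfl

theorem UP.amp {E : C(P, ℂ) →ₗ[ℂ] (K →L[ℂ] K)} (h : UP E) : UP (ampL Q E) where
  one := by rw [ampL_ap, h.one, amp_one]
  ks f ζ := by
    rw [ampL_ap, ampL_ap, norm_sq_KT, inner_KT, Complex.re_sum]
    exact Finset.sum_le_sum fun j _ => h.ks f (ζ j)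

theorem Mp.amp {u : G} {E : C(P, ℂ) →ₗ[ℂ] (K →L[ℂ] K)} (h : Mp π lam W q u E) :
    Mp (ampH Q π) (ampH Q lam) (ampW Q W) q u (ampL Q E) where
  up := h.up.amp
  cm f := cm_amp (h.cm f)
  com f := amp_comm_iff.2 (h.com f)
  cov γ f := by
    rw [ampL_ap, ampL_ap, ampH_ap, ampH_ap, ← amp_mul, ← amp_mul, h.cov]

theorem LgF.amp (h : LgF μ π lam W Ω q Φ) (j : ι ↪ Q) :
    Lg μ (ampH Q π) (ampH Q lam) (ampW Q W) (ampO j Ω) q (ampN Q Φ) where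
  adjP g := by rw [ampH_ap, adjoint_amp, h.adjP]; rfl
  adjL g := by rw [ampH_ap, adjoint_amp, h.adjL]; rfl
  Wadj := by
    rintro _ (⟨w, hw, rfl⟩ | ⟨f, rfl⟩)
    · rw [adjoint_amp]
      exact Or.inl ⟨_, h.Wadj w hw, rfl⟩
    · rw [adjoint_sg]
      exact Or.inr ⟨_, rfl⟩
  nΩ := norm_one_ampO j h.nΩ
  tr_adj T hT := by
    obtain ⟨T', rfl, hT'⟩ := cm_ampW.1 hT
    rw [adjoint_amp, trn_amp, trn_amp, h.tr_adj T' hT']
  tr_zero T hT h0 := by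
    obtain ⟨T', rfl, hT'⟩ := cm_ampW.1 hT
    rw [trn_amp] at h0
    rw [h.tr_zero T' hT' h0, amp_zero]
  tv Y hY hl v := by
    obtain ⟨Y', rfl, hY'⟩ := cm_ampW.1 hY
    have h2 := h.tv Y' hY' (fun γ => amp_comm_iff.1 (hl γ)) v
    rw [inner_ampO, ← h2, inner_KT]
    exact sum_ampO j Ω (fun x => ⟪π v x, Y' (π v x)⟫_ℂ) (by simp)
  cm c := cm_amp (h.cm c)
  cov γ c := by rw [ampN_ap, ampN_ap, ampH_ap, ampH_ap, ← amp_mul, ← amp_mul, h.cov]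
  pcov g c := by rw [ampN_ap, ampN_ap, ampH_ap, ampH_ap, ← amp_mul, ← amp_mul, h.pcov]
  sq c hc ξ := by
    have e1 : ∀ g, ‖ampN Q Φ (ltr g c) ξ‖ₑ ^ 2 = ∑ x, ‖Φ (ltr g c) (ξ x)‖ₑ ^ 2 := by
      intro g
      rw [enorm_sq_KT]
      rfl
    simp_rw [e1]
    rw [lintegral_finset_sum _ fun x _ => ?_]
    · simp_rw [h.sq c hc]
      rw [← Finset.mul_sum, enorm_sq_KT]
    · have h1 : Continuous fun g => Φ (ltr g c) (ξ x) :=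
        ((continuous_map Φ).comp (continuous_ltr c)).clm_apply continuous_const
      exact h1.enorm.measurable.pow_const 2

theorem nd_amp (hnd : ∀ ξ, (∀ c, Φ c ξ = 0) → ξ = 0) (ξ : KT Q K)
    (h : ∀ c, ampN Q Φ c ξ = 0) : ξ = 0 := by
  apply ext_co
  intro x
  exact hnd _ fun c => congrArg (fun v : KT Q K => v x) (h c)

end amp

/-- a group which is large enough -/
theorem exists_emb (ι : Type) [Fintype ι] :
    ∃ (Q : Type) (_ : Group Q) (_ : Fintype Q), Nonempty (ι ↪ Q) := by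
  refine ⟨Multiplicative (ZMod (Fintype.card ι + 1)), inferInstance, inferInstance, ?_⟩
  refine Function.Embedding.nonempty_of_card_le ?_
  rw [Fintype.card_multiplicative, ZMod.card]
  exact Nat.le_succ _

/-- **uniqueness of the boundary map, for a family of vectors** -/
theorem uqF [T2Space G] [LocallyCompactSpace G] [T2Space P] [Countable Γ] [μ.IsHaarMeasure]
    [μ.IsMulRightInvariant] (h : LgF μ π lam W Ω q Φ)
    (hnd : ∀ ξ, (∀ c, Φ c ξ = 0) → ξ = 0)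
    (hN : ∀ C : Set G, IsCompact C → ∃ N : ℕ, ∀ g, ∑' γ, C.indicator (1 : G → ℝ≥0∞) (q γ * g) ≤ N)
    {u : G} {y : P} (hy : ∀ ξ : P, Tendsto (fun j : ℕ => u ^ j • ξ) atTop (𝓝 y))
    {E : C(P, ℂ) →ₗ[ℂ] (K →L[ℂ] K)}
    (hE : Mp π lam W q u E) (F : C(P, ℂ) → (K →L[ℂ] K))
    (hF : ∀ f (b b' : C₀(G, ℂ)), (∀ x, b' x = f (x • y) * b x) → F f * Φ b = Φ b') :
    ∀ f, E f = F f := by
  obtain ⟨Q, _, _, ⟨j⟩⟩ := exists_emb ι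
  intro f
  have h1 := uq (h.amp j) (nd_amp hnd) hN hy hE.amp (fun f => amp (F f))
    (fun f b b' hb => by rw [ampN_ap, ampN_ap, ← amp_mul, hF f b b' hb]) f
  rw [ampL_ap] at h1
  exact amp_inj h1

end Vale.Agent.P092.H862
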