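import Vale.Agent.P092.H325.XcI
import Vale.Agent.P092.H862.UqF

/-!
P092, Team N, all amplifications (helper862): helper325's abstract cross-leg step with a finite
family of vectors in leg 1 (by the amplification `K ⊗ ℂ^Q`).
-/

set_option linter.all false

open scoped InnerProductSpace ENNReal ZeroAtInfty Pointwise
open Filter Topology ContinuousLinearMap MeasureTheory

namespace Vale.Agent.P092.H862

open Vale.Agent.P092.RC (Cm TRN TRNF PicF ampH ampW ampO ampS cm_amp cm_ampW amp_comm_iff trn_amp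
  inner_ampO norm_one_ampO ampH_ap sum_ampO enorm_sq_KT)
open Vale.Agent.P092.H295
open Vale.Agent.P092.H325 (LgI MpI)
open Vale.Agent.P092.H715.Disj (Disj)
open Vale.Agent.P092.H333.Amp

variable {G Γ H : Type} [Group G] [TopologicalSpace G] [IsTopologicalGroup G]
  [SecondCountableTopology G] [MeasurableSpace G] [BorelSpace G] [Group Γ] [Group H]
variable {K κ : Type} [NormedAddCommGroup K] [InnerProductSpace ℂ K] [CompleteSpace K] [Fintype κ]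
variable {P : Type} [TopologicalSpace P] [CompactSpace P] [MulAction G P] [ContinuousSMul G P]
variable {μ : Measure G} {ι : H →* G} {π : H →* (K →L[ℂ] K)} {lam : Γ →* (K →L[ℂ] K)}
  {W : Set (K →L[ℂ] K)} {Ω : κ → K} {q : Γ →* G} {Φ : C₀(G, ℂ) →⋆ₙₐ[ℂ] (K →L[ℂ] K)}

/-- `PicF` and the invariance (TV) of the family give `PicU` -/
theorem picU_of_picF [TopologicalSpace H] (hP : PicF π lam W Ω)
    (tv : ∀ Y, Cm W Y → (∀ γ, Y * lam γ = lam γ * Y) → ∀ h,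
      ∑ i, ⟪π h (Ω i), Y (π h (Ω i))⟫_ℂ = ∑ i, ⟪Ω i, Y (Ω i)⟫_ℂ) : PicU π lam W Ω :=
  ⟨hP.adjP, hP.adjL, hP.Wadj, hP.nΩ, hP.tr_adj, hP.tr_zero, tv⟩

/-- restriction to a group over the source group -/
theorem PicU.comp {E₀ : Type} [Group E₀] {π₀ : E₀ →* (K →L[ℂ] K)} (h : PicU π₀ lam W Ω)
    (j : H →* E₀) : PicU (π₀.comp j) lam W Ω where
  adjP g := by
    rw [MonoidHom.comp_apply, MonoidHom.comp_apply, map_inv]
    exact h.adjP (j g)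
  adjL := h.adjL
  Wadj := h.Wadj
  nΩ := h.nΩ
  tr_adj := h.tr_adj
  tr_zero := h.tr_zero
  tv Y hY hl g := h.tv Y hY hl (j g)

/-- `H325.LgI` for a finite family of vectors -/
structure LgIF (μ : Measure G) (ι : H →* G) (π : H →* (K →L[ℂ] K)) (lam : Γ →* (K →L[ℂ] K))
    (W : Set (K →L[ℂ] K)) (Ω : κ → K) (q : Γ →* G) (Φ : C₀(G, ℂ) →⋆ₙₐ[ℂ] (K →L[ℂ] K)) : Prop where
  pic : PicU π lam W Ω
  cm : ∀ c, Cm W (Φ c)
  cov : ∀ γ c, lam γ * Φ c * lam γ⁻¹ = Φ (ltr (q γ) c)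
  pcov : ∀ h c, π h * Φ c * π h⁻¹ = Φ (rtr (ι h) c)
  sq : ∀ c : C₀(G, ℂ), HasCompactSupport c → ∀ ξ,
    ∫⁻ g, ‖Φ (ltr g c) ξ‖ₑ ^ 2 ∂μ = (∫⁻ g, ‖c g‖ₑ ^ 2 ∂μ) * ‖ξ‖ₑ ^ 2

section amp

variable {Q : Type} [Group Q] [Fintype Q]

theorem mpI_amp {M : Set H} {E : C(P, ℂ) →ₗ[ℂ] (K →L[ℂ] K)} (h : MpI π lam W q M E) :
    MpI (ampH Q π) (ampH Q lam) (ampW Q W) q M (ampL Q E) where
  up := h.up.amp
  cm f := cm_amp (h.cm f)
  com u hu f := amp_comm_iff.2 (h.com u hu f)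
  cov γ f := by
    rw [ampL_ap, ampL_ap, ampH_ap, ampH_ap, ← amp_mul, ← amp_mul, h.cov]

theorem LgIF.amp (h : LgIF μ ι π lam W Ω q Φ) (j : κ ↪ Q) :
    LgI μ ι (ampH Q π) (ampH Q lam) (ampW Q W) (ampO j Ω) q (ampN Q Φ) where
  adjP g := by rw [ampH_ap, adjoint_amp, h.pic.adjP]; rfl
  adjL g := by rw [ampH_ap, adjoint_amp, h.pic.adjL]; rfl
  Wadj := by
    rintro _ (⟨w, hw, rfl⟩ | ⟨f, rfl⟩)
    · rw [adjoint_amp]
      exact Or.inl ⟨_, h.pic.Wadj w hw, rfl⟩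
    · rw [adjoint_sg]
      exact Or.inr ⟨_, rfl⟩
  nΩ := norm_one_ampO j h.pic.nΩ
  tr_adj T hT := by
    obtain ⟨T', rfl, hT'⟩ := cm_ampW.1 hT
    rw [adjoint_amp, trn_amp, trn_amp, h.pic.tr_adj T' hT']
  tr_zero T hT h0 := by
    obtain ⟨T', rfl, hT'⟩ := cm_ampW.1 hT
    rw [trn_amp] at h0
    rw [h.pic.tr_zero T' hT' h0, amp_zero]
  tv Y hY hl v := by
    obtain ⟨Y', rfl, hY'⟩ := cm_ampW.1 hY
    have h2 := h.pic.tv Y' hY' (fun γ => amp_comm_iff.1 (hl γ)) v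
    rw [inner_ampO, ← h2, inner_KT]
    exact sum_ampO j Ω (fun x => ⟪π v x, Y' (π v x)⟫_ℂ) (by simp)
  cm c := cm_amp (h.cm c)
  cov γ c := by rw [ampN_ap, ampN_ap, ampH_ap, ampH_ap, ← amp_mul, ← amp_mul, h.cov]
  pcov g c := by rw [ampN_ap, ampN_ap, ampH_ap, ampH_ap, ← amp_mul, ← amp_mul, h.pcov]
  sq c hc ξ := by
    have e1 : ∀ g, ‖ampN Q Φ (ltr g c) ξ‖ₑ ^ 2 = ∑ x, ‖Φ (ltr g c) (ξ x)‖ₑ ^ 2 := by
      intro g
      rw [enorm_sq_KT]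
      rfl
    simp_rw [e1]
    rw [lintegral_finset_sum _ fun x _ => ?_]
    · simp_rw [h.sq c hc]
      rw [← Finset.mul_sum, enorm_sq_KT]
    · have h1 : Continuous fun g => Φ (ltr g c) (ξ x) :=
        ((continuous_map Φ).comp (continuous_ltr c)).clm_apply continuous_const
      exact h1.enorm.measurable.pow_const 2

end amp

section uniq

variable [T2Space G] [LocallyCompactSpace G] [T2Space P] [Countable Γ] [μ.IsHaarMeasure]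
  [μ.IsMulRightInvariant]

/-- **uniqueness of the boundary map, for a family of vectors** -/
theorem LgIF.uq (h : LgIF μ ι π lam W Ω q Φ)
    (hnd : ∀ ξ, (∀ c, Φ c ξ = 0) → ξ = 0)
    (hN : ∀ C : Set G, IsCompact C → ∃ N : ℕ, ∀ g, ∑' γ, C.indicator (1 : G → ℝ≥0∞) (q γ * g) ≤ N)
    {y : P} {M : Set H} (hM : ∀ u ∈ M, ∀ v ∈ M, Commute u v) (hy : Disj ι M y)
    {E : C(P, ℂ) →ₗ[ℂ] (K →L[ℂ] K)}
    (hE : MpI π lam W q M E) (F : C(P, ℂ) → (K →L[ℂ] K))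
    (hF : ∀ f (b b' : C₀(G, ℂ)), (∀ x, b' x = f (x • y) * b x) → F f * Φ b = Φ b') :
    ∀ f, E f = F f := by
  obtain ⟨Q, _, _, ⟨j⟩⟩ := exists_emb κ
  intro f
  have h1 := (h.amp j).uq (nd_amp hnd) hN hM hy (mpI_amp hE) (fun f => H333.Amp.amp (F f))
    (fun f b b' hb => by rw [ampN_ap, ampN_ap, ← amp_mul, hF f b b' hb]) f
  rw [ampL_ap] at h1
  exact amp_inj h1

/-- the uniqueness in the letters of helper295 -/
theorem LgIF.uniq (h : LgIF μ ι π lam W Ω q Φ)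
    (hN : ∀ C : Set G, IsCompact C → ∃ N : ℕ, ∀ g, ∑' γ, C.indicator (1 : G → ℝ≥0∞) (q γ * g) ≤ N)
    {y : P} {M : Set H} (hM : ∀ u ∈ M, ∀ v ∈ M, Commute u v) (hy : Disj ι M y)
    {E : C(P, ℂ) →⋆ₐ[ℂ] (K →L[ℂ] K)} (hp : Pt π lam W q ι y E Φ) : Uniq π lam W q M E := by
  intro E' h1 h2 h3 h4 h5 h6 f
  refine h.uq hp.nd hN hM hy (E := E') ⟨⟨h1, h2⟩, h4, fun u hu f => ?_, h5⟩ (fun f => E f)
    (fun f b b' hb => ?_) f
  · have h7 := h6 u hu f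
    calc π u * E' f = π u * E' f * π u⁻¹ * π u := by
          rw [mul_assoc (π u * E' f), inv_mul_map, mul_one]
      _ = E' f * π u := by rw [h7]
  · have e : b' = mf y f b := by
      ext x
      exact hb x
    rw [e]
    exact hp.mulE f b

/-- the structure `LgIF` from the picture and a point of a classical leg -/
theorem lgIF_of (hP : PicU π lam W Ω) {y : P} {E : C(P, ℂ) →⋆ₐ[ℂ] (K →L[ℂ] K)}
    (hp : Pt π lam W q ι y E Φ) : LgIF μ ι π lam W Ω q Φ where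
  pic := hP
  cm := hp.cm
  cov := hp.cov
  pcov := hp.pcov
  sq c hc ξ := by
    have h1 := H295.sq_int μ hp.nd c hc ξ
    have h2 := H295.integrable_sq μ hp.nd c hc ξ
    have h3 : ∫⁻ g, ‖Φ (ltr g c) ξ‖ₑ ^ 2 ∂μ = ENNReal.ofReal (∫ g, ‖Φ (ltr g c) ξ‖ ^ 2 ∂μ) := by
      rw [ofReal_integral_eq_lintegral_ofReal h2 (Eventually.of_forall fun g => by positivity)]
      refine lintegral_congr fun g => ?_
      rw [← ofReal_norm_eq_enorm, ← ENNReal.ofReal_pow (norm_nonneg _)]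
    have h4 : Continuous fun g => ‖c g‖ ^ 2 := (map_continuous c).norm.pow 2
    have h5 : HasCompactSupport fun g => ‖c g‖ ^ 2 :=
      hc.comp_left (g := fun z : ℂ => ‖z‖ ^ 2) (by simp)
    have h6 : Integrable (fun g => ‖c g‖ ^ 2) μ := h4.integrable_of_hasCompactSupport h5
    have h7 : ∫⁻ g, ‖c g‖ₑ ^ 2 ∂μ = ENNReal.ofReal (H295.sq μ c) := by
      unfold H295.sq
      rw [ofReal_integral_eq_lintegral_ofReal h6 (Eventually.of_forall fun g => by positivity)]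
      refine lintegral_congr fun g => ?_
      rw [← ofReal_norm_eq_enorm, ← ENNReal.ofReal_pow (norm_nonneg _)]
    rw [h3, h1, h7, ENNReal.ofReal_mul (H295.sq_nonneg' μ c),
      ENNReal.ofReal_pow (norm_nonneg _), ofReal_norm_eq_enorm]

end uniq

end Vale.Agent.P092.H862

namespace Vale.Agent.P092.H862

open Vale.Agent.P092.RC (Cm)
open Vale.Agent.P092.H295
open Vale.Agent.P092.H715.Disj (Disj)

variable {G₁ G₂ : Type}
  [Group G₁] [TopologicalSpace G₁] [IsTopologicalGroup G₁] [T2Space G₁] [LocallyCompactSpace G₁]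
  [SecondCountableTopology G₁] [MeasurableSpace G₁] [BorelSpace G₁]
  [Group G₂] [TopologicalSpace G₂] [IsTopologicalGroup G₂] [T2Space G₂] [LocallyCompactSpace G₂]
  [SecondCountableTopology G₂] [MeasurableSpace G₂] [BorelSpace G₂]
variable {Γ₁ Γ₂ H E₀ κ : Type} [Group Γ₁] [Group Γ₂] [Group H] [Group E₀] [Fintype κ]
variable {K : Type} [NormedAddCommGroup K] [InnerProductSpace ℂ K] [CompleteSpace K]
variable {P : Type} [TopologicalSpace P] [CompactSpace P] [T2Space P] [MulAction G₁ P]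
  [ContinuousSMul G₁ P]
variable {π₀ : E₀ →* (K →L[ℂ] K)} {lam₁ : Γ₁ →* (K →L[ℂ] K)} {lam₂ : Γ₂ →* (K →L[ℂ] K)}
  {X : Set (K →L[ℂ] K)} {Ω : κ → K} {q₁ : Γ₁ →* G₁} {q₂ : Γ₂ →* G₂} {ι₁ : H →* G₁} {ι₂ : H →* G₂}
  {Q₁ : C₀(G₁, ℂ) →⋆ₙₐ[ℂ] (K →L[ℂ] K)} {Q₂ : C₀(G₂, ℂ) →⋆ₙₐ[ℂ] (K →L[ℂ] K)}

/-- **[N-XC], abstract form, for a family of vectors** (`H325.xc_pt`): the calculus of a point of the
first leg commutes with the classical calculus of the second leg. From the second leg only `nd`,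
`cm`, `cov`, `pcov` are used. -/
theorem xc_ptF [Countable Γ₁] (μ₁ : Measure G₁) [μ₁.IsHaarMeasure] [μ₁.IsMulRightInvariant]
    (μ₂ : Measure G₂) [μ₂.IsHaarMeasure] [μ₂.IsMulRightInvariant] (j : H →* E₀)
    (hPic : PicU π₀ lam₁ (X ∪ Set.range lam₂) Ω)
    (hN : ∀ C : Set G₁, IsCompact C → ∃ N : ℕ, ∀ g,
      ∑' γ, C.indicator (1 : G₁ → ℝ≥0∞) (q₁ γ * g) ≤ N)
    {y : P} {E : C(P, ℂ) →⋆ₐ[ℂ] (K →L[ℂ] K)}
    (hp : Pt (π₀.comp j) lam₁ (X ∪ Set.range lam₂) q₁ ι₁ y E Q₁)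
    (adj₂ : ∀ γ, adjoint (lam₂ γ) = lam₂ γ⁻¹)
    (nd₂ : ∀ ξ, (∀ ψ, Q₂ ψ ξ = 0) → ξ = 0) (cm₂ : ∀ ψ, Cm (X ∪ Set.range lam₁) (Q₂ ψ))
    (cov₂ : ∀ γ ψ, lam₂ γ * Q₂ ψ * lam₂ γ⁻¹ = Q₂ (ltr (q₂ γ) ψ))
    (pcov₂ : ∀ (h : H) ψ, π₀ (j h) * Q₂ ψ * π₀ (j h)⁻¹ = Q₂ (rtr (ι₂ h) ψ))
    {M : Set H} (hM : ∀ u ∈ M, ∀ v ∈ M, Commute u v) (fix : ∀ u ∈ M, ι₁ u • y = y)
    (hD : Disj ι₁ M y) (f : C(P, ℂ)) (χ : C₀(G₂, ℂ)) : Commute (E f) (Q₂ χ) := by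
  have hL := lgIF_of (μ := μ₁) (hPic.comp j) hp
  refine commute_of_uniq (q₂ := q₂) (ι₂ := ι₂) (π := π₀.comp j) μ₂ hp nd₂ cm₂ cov₂ (fun h ψ => ?_)
    (fun g => ?_) hPic.adjL adj₂ M hM fix (hL.uniq hN hM hD hp) f χ
  · rw [MonoidHom.comp_apply, MonoidHom.comp_apply, map_inv]
    exact pcov₂ h ψ
  · rw [MonoidHom.comp_apply, MonoidHom.comp_apply, map_inv]
    exact hPic.adjP (j g)

end Vale.Agent.P092.H862
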