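import Vale.Agent.P092.H325.PXc
import Vale.Agent.P092.H862.XcIF

/-!
P092, TEAM N, all amplifications (helper862): `H325.nXc`, `H325.pXc` for a finite family of vectors.
In the first leg: `PicU` (`RC.PicF` and the invariance (TV) of the family); of the second leg only
the adjoints and the classical calculus are used.
-/

set_option linter.all false

open scoped InnerProductSpace ENNReal ZeroAtInfty LinearAlgebra.Projectivization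
open Filter Topology ContinuousLinearMap MeasureTheory Matrix

namespace Vale.Agent.P092.H862

open Vale.Agent.P092.RC (Cm TRN GG PG YY)
open Vale.Agent.P092.SN (CY PH UD nm)
open Vale.Agent.P092.H295
open Vale.Agent.P092.H325 (qP ClsI JL FL sg fl_of disc_pi)
open Vale.Agent.P092.H715.Disj (Disj NN nn_comm nn_fix disj_nn sv sv_ne)
open Vale.Agent.P092.H35 (sp)
open Vale.Agent.P092.H35.Sig (sgm)

section xc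

variable {k : Type} [NontriviallyNormedField k] [ProperSpace k] {N : ℕ} {E₀ Γ₁ Γ₂ K κ : Type}
  [Group E₀] [Group Γ₁] [Group Γ₂] [NormedAddCommGroup K] [InnerProductSpace ℂ K]
  [CompleteSpace K] [Fintype κ]
  {ι : GG k N →* E₀} {π : E₀ →* (K →L[ℂ] K)} {lam₁ : Γ₁ →* (K →L[ℂ] K)}
  {lam₂ : Γ₂ →* (K →L[ℂ] K)} {X : Set (K →L[ℂ] K)} {Ω : κ → K} {q₁ : Γ₁ → GG k N}
  {E₁ : YY k N → (CY k N →⋆ₐ[ℂ] (K →L[ℂ] K))} {σ₁ : k →+* k}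
  {Q₁ : C₀(PG k (N + 1), ℂ) →⋆ₙₐ[ℂ] (K →L[ℂ] K)}

/-- **[N-XC] for a family of vectors**, the second leg with any target group -/
theorem nXc_genF [Countable Γ₁] {G₂ : Type} [Group G₂] [TopologicalSpace G₂]
    [IsTopologicalGroup G₂] [T2Space G₂] [LocallyCompactSpace G₂] [SecondCountableTopology G₂]
    [MeasurableSpace G₂] [BorelSpace G₂] (μ₂ : Measure G₂) [μ₂.IsHaarMeasure]
    [μ₂.IsMulRightInvariant] {q₂ : Γ₂ →* G₂} {ι₂ : GG k N →* G₂}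
    {Q₂ : C₀(G₂, ℂ) →⋆ₙₐ[ℂ] (K →L[ℂ] K)}
    (hPic : PicU π lam₁ (X ∪ Set.range lam₂) Ω)
    (adj₂ : ∀ γ, adjoint (lam₂ γ) = lam₂ γ⁻¹) (ph₁ : PH q₁)
    (ov₁ : ∀ C : Set (PG k (N + 1)), IsCompact C → ∃ M : ℕ, ∀ g : PG k (N + 1),
      ∑' γ, C.indicator (1 : PG k (N + 1) → ℝ≥0∞) (qP q₁ ph₁ γ * g) ≤ M)
    (h₁ : ClsI ι π lam₁ (X ∪ Set.range lam₂) q₁ E₁ σ₁ Q₁)
    (nd₂ : ∀ ξ, (∀ ψ, Q₂ ψ ξ = 0) → ξ = 0) (cm₂ : ∀ ψ, Cm (X ∪ Set.range lam₁) (Q₂ ψ))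
    (cov₂ : ∀ γ ψ, lam₂ γ * Q₂ ψ * lam₂ γ⁻¹ = Q₂ (ltr (q₂ γ) ψ))
    (pcov₂ : ∀ (h : GG k N) ψ, π (ι h) * Q₂ ψ * π (ι h)⁻¹ = Q₂ (rtr (ι₂ h) ψ))
    (ψ : C₀(PG k (N + 1), ℂ)) (χ : C₀(G₂, ℂ)) : Commute (Q₁ ψ) (Q₂ χ) := by
  letI : MeasurableSpace (PG k (N + 1)) := borel _
  haveI : BorelSpace (PG k (N + 1)) := ⟨rfl⟩
  haveI : (Measure.haar : Measure (PG k (N + 1))).IsMulRightInvariant :=
    H626.rightInv_pg k (N + 1) _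
  haveI : Infinite k := NontriviallyNormedField.infinite k
  refine (h₁.gen (T := Q₂ χ) (fun y f => Commute.symm ?_) ψ).symm
  obtain ⟨⟨v, hv⟩, rfl⟩ := H820.pj_surj y
  have hpt := h₁.pt ph₁ (H820.pj k (Fin (N + 1)) ⟨v, hv⟩)
  have e : sgm σ₁ (N + 1) (H820.pj k (Fin (N + 1)) ⟨v, hv⟩) =
      H820.pj k (Fin (N + 1)) ⟨sv σ₁ v, sv_ne σ₁ hv⟩ := rfl
  rw [e] at hpt
  exact xc_ptF (Measure.haar : Measure (PG k (N + 1))) μ₂ ι hPic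
    ov₁ hpt adj₂ nd₂ cm₂ cov₂ pcov₂ (M := NN v)
    (fun u hu u' hu' => nn_comm v hu hu') (fun u hu => nn_fix σ₁ hv hu)
    (disj_nn σ₁ (H35.Sig.unb σ₁) _ (fun h x => rfl) hv) f χ

/-- **[N-XC] for a family of vectors: two classical legs commute.** -/
theorem nXcF [Countable Γ₁] {q₂ : Γ₂ → GG k N} {E₂ : YY k N → (CY k N →⋆ₐ[ℂ] (K →L[ℂ] K))}
    {σ₂ : k →+* k} {Q₂ : C₀(PG k (N + 1), ℂ) →⋆ₙₐ[ℂ] (K →L[ℂ] K)}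
    (hPic : PicU π lam₁ (X ∪ Set.range lam₂) Ω)
    (adj₂ : ∀ γ, adjoint (lam₂ γ) = lam₂ γ⁻¹) (ph₁ : PH q₁)
    (ov₁ : ∀ C : Set (PG k (N + 1)), IsCompact C → ∃ M : ℕ, ∀ g : PG k (N + 1),
      ∑' γ, C.indicator (1 : PG k (N + 1) → ℝ≥0∞) (qP q₁ ph₁ γ * g) ≤ M) (ph₂ : PH q₂)
    (h₁ : ClsI ι π lam₁ (X ∪ Set.range lam₂) q₁ E₁ σ₁ Q₁)
    (h₂ : ClsI ι π lam₂ (X ∪ Set.range lam₁) q₂ E₂ σ₂ Q₂) (ψ φ : C₀(PG k (N + 1), ℂ)) :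
    Commute (Q₁ ψ) (Q₂ φ) := by
  letI : MeasurableSpace (PG k (N + 1)) := borel _
  haveI : BorelSpace (PG k (N + 1)) := ⟨rfl⟩
  haveI : (Measure.haar : Measure (PG k (N + 1))).IsMulRightInvariant :=
    H626.rightInv_pg k (N + 1) _
  exact nXc_genF (Measure.haar : Measure (PG k (N + 1))) (q₂ := qP q₂ ph₂)
    (ι₂ := (sp k (N + 1)).comp (SpecialLinearGroup.map σ₂)) hPic adj₂ ph₁ ov₁ h₁
    h₂.nd h₂.cm (fun γ ψ => h₂.cov γ ψ _ fun x => rfl) (fun h ψ => h₂.pcov h ψ _ fun x => rfl) ψ φ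

end xc

/-! ### Finite products -/

section abs

variable {J : Type} [Fintype J] {G₁ H : J → Type} [∀ j, Group (G₁ j)]
  [∀ j, TopologicalSpace (G₁ j)] [∀ j, IsTopologicalGroup (G₁ j)] [∀ j, T2Space (G₁ j)]
  [∀ j, LocallyCompactSpace (G₁ j)] [∀ j, SecondCountableTopology (G₁ j)]
  [∀ j, MeasurableSpace (G₁ j)] [∀ j, BorelSpace (G₁ j)] [∀ j, Group (H j)]
variable {G₂ : Type} [Group G₂] [TopologicalSpace G₂] [IsTopologicalGroup G₂] [T2Space G₂]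
  [LocallyCompactSpace G₂] [SecondCountableTopology G₂] [MeasurableSpace G₂] [BorelSpace G₂]
variable {E₀ Γ₁ Γ₂ K κ : Type} [Group E₀] [Group Γ₁] [Group Γ₂]
  [NormedAddCommGroup K] [InnerProductSpace ℂ K] [CompleteSpace K] [Fintype κ]
variable {π₀ : E₀ →* (K →L[ℂ] K)} {lam₁ : Γ₁ →* (K →L[ℂ] K)} {lam₂ : Γ₂ →* (K →L[ℂ] K)}
  {X : Set (K →L[ℂ] K)} {Ω : κ → K} {i : ∀ j, H j →* E₀} {q₁ : ∀ j, Γ₁ →* G₁ j}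
  {ι₁ : ∀ j, H j →* G₁ j} {Q₁ : ∀ j, C₀(G₁ j, ℂ) →⋆ₙₐ[ℂ] (K →L[ℂ] K)}
  {QQ₁ : C₀(∀ j, G₁ j, ℂ) →⋆ₙₐ[ℂ] (K →L[ℂ] K)}
  {q₂ : Γ₂ →* G₂} {ι₂ : ∀ j, H j →* G₂} {QQ₂ : C₀(G₂, ℂ) →⋆ₙₐ[ℂ] (K →L[ℂ] K)}

/-- a point of the factor `j` of the first leg commutes with the second leg, for a family of
vectors -/
theorem xc_factorF [Countable Γ₁] (ν : ∀ j, Measure (G₁ j)) [∀ j, (ν j).IsHaarMeasure]
    [∀ j, (ν j).IsMulRightInvariant] (μ₂ : Measure G₂) [μ₂.IsHaarMeasure]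
    [μ₂.IsMulRightInvariant] (hPic : PicU π₀ lam₁ (X ∪ Set.range lam₂) Ω)
    (hJ : JL π₀ lam₁ (X ∪ Set.range lam₂) i q₁ ι₁ Q₁ QQ₁)
    (nd₁ : ∀ j ξ, (∀ ψ, Q₁ j ψ ξ = 0) → ξ = 0)
    (disc : ∀ C : Set (∀ j, G₁ j), IsCompact C → {γ | Pi.monoidHom q₁ γ ∈ C}.Finite)
    (adj₂ : ∀ γ, adjoint (lam₂ γ) = lam₂ γ⁻¹)
    (nd₂ : ∀ ξ, (∀ ψ, QQ₂ ψ ξ = 0) → ξ = 0) (cm₂ : ∀ ψ, Cm (X ∪ Set.range lam₁) (QQ₂ ψ))
    (cov₂ : ∀ γ ψ, lam₂ γ * QQ₂ ψ * lam₂ γ⁻¹ = QQ₂ (ltr (q₂ γ) ψ))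
    (pcov₂ : ∀ j (h : H j) ψ, π₀ (i j h) * QQ₂ ψ * π₀ (i j h)⁻¹ = QQ₂ (rtr (ι₂ j h) ψ))
    (j : J) {P : Type} [TopologicalSpace P] [CompactSpace P] [T2Space P] [MulAction (G₁ j) P]
    [ContinuousSMul (G₁ j) P] {y : P} {E : C(P, ℂ) →⋆ₐ[ℂ] (K →L[ℂ] K)}
    (hE : ∀ f ψ, E f * Q₁ j ψ = Q₁ j (mf y f ψ)) {M : Set (H j)}
    (hM : ∀ u ∈ M, ∀ v ∈ M, Commute u v) (fix : ∀ u ∈ M, ι₁ j u • y = y)
    (hD : Disj (ι₁ j) M y) (f : C(P, ℂ)) (χ : C₀(G₂, ℂ)) : Commute (E f) (QQ₂ χ) := by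
  letI : MulAction (∀ j, G₁ j) P := MulAction.compHom P (Pi.evalMonoidHom G₁ j)
  have hs : ∀ (g : ∀ j, G₁ j) (x : P), g • x = g j • x := fun g x => rfl
  haveI : ContinuousSMul (∀ j, G₁ j) P := ⟨by
    have h1 : Continuous fun p : (∀ j, G₁ j) × P => p.1 j • p.2 :=
      ((continuous_apply j).comp continuous_fst).smul continuous_snd
    exact h1⟩
  have hpt : Pt (π₀.comp (i j)) lam₁ (X ∪ Set.range lam₂) (Pi.monoidHom q₁) (sg ι₁ j) y E QQ₁ := by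
    refine ⟨hJ.nd, hJ.cm, hJ.cov, fun h Ψ => ?_, fun f Ψ => ?_⟩
    · rw [MonoidHom.comp_apply, MonoidHom.comp_apply, map_inv]
      exact hJ.pcov j h Ψ
    · exact hJ.mulE (nd₁ j) hE f Ψ _ fun x => rfl
  refine xc_ptF (Measure.pi ν) μ₂ (i j) hPic
    (fun C hC => H715.Xc6.overlap_tsum (Pi.monoidHom q₁) disc hC) hpt adj₂ nd₂ cm₂ cov₂
    (fun h ψ => pcov₂ j h ψ) hM (fun u hu => ?_) ?_ f χ
  · rw [hs, H325.sg_same]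
    exact fix u hu
  · intro ξ hξ
    obtain ⟨V, hV, hm, h⟩ := hD ξ hξ
    refine ⟨V, hV, hm, fun m => ?_⟩
    obtain ⟨n, hn, hd⟩ := h m
    refine ⟨n, hn, fun a b hab x hx x' hx' => ?_⟩
    rw [hs, hs, H325.sg_same, H325.sg_same]
    exact hd a b hab x hx x' hx'

end abs

section pg

variable {J : Type} [Fintype J] {k : J → Type} [∀ j, NontriviallyNormedField (k j)]
  [∀ j, ProperSpace (k j)] {N : J → ℕ}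
variable {E₀ Γ₁ Γ₂ K κ : Type} [Group E₀] [Group Γ₁] [Group Γ₂]
  [NormedAddCommGroup K] [InnerProductSpace ℂ K] [CompleteSpace K] [Fintype κ]
variable {ι : ∀ j, GG (k j) (N j) →* E₀} {π : E₀ →* (K →L[ℂ] K)} {lam₁ : Γ₁ →* (K →L[ℂ] K)}
  {lam₂ : Γ₂ →* (K →L[ℂ] K)} {X : Set (K →L[ℂ] K)} {Ω : κ → K}
  {q₁ : ∀ j, Γ₁ → GG (k j) (N j)} {q₂ : ∀ j, Γ₂ → GG (k j) (N j)}
  {E₁ E₂ : ∀ j, YY (k j) (N j) → (CY (k j) (N j) →⋆ₐ[ℂ] (K →L[ℂ] K))}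
  {σ₁ σ₂ : ∀ j, k j →+* k j}
  {Q₁ Q₂ : ∀ j, C₀(PG (k j) (N j + 1), ℂ) →⋆ₙₐ[ℂ] (K →L[ℂ] K)}

/-- **[N-XC] for products and a family of vectors: every factor of the first leg commutes with
every factor of the second.** -/
theorem pXcF [Countable Γ₁] (hPic : PicU π lam₁ (X ∪ Set.range lam₂) Ω)
    (adj₂ : ∀ γ, adjoint (lam₂ γ) = lam₂ γ⁻¹) (ph₁ : ∀ j, PH (q₁ j)) (ph₂ : ∀ j, PH (q₂ j))
    (disc₁ : ∀ C : ℝ, {γ : Γ₁ | ∀ j, nm (q₁ j γ) ≤ C}.Finite)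
    (h₁ : ∀ j, ClsI (ι j) π lam₁ (X ∪ Set.range lam₂) (q₁ j) (E₁ j) (σ₁ j) (Q₁ j))
    (pcm₁ : ∀ j' j, j' ≠ j → ∀ (h : GG (k j') (N j')) ψ, Commute (π (ι j' h)) (Q₁ j ψ))
    (com₁ : ∀ j' j, j' ≠ j → ∀ ψ φ, Commute (Q₁ j' ψ) (Q₁ j φ))
    (h₂ : ∀ j, ClsI (ι j) π lam₂ (X ∪ Set.range lam₁) (q₂ j) (E₂ j) (σ₂ j) (Q₂ j))
    (pcm₂ : ∀ j' j, j' ≠ j → ∀ (h : GG (k j') (N j')) ψ, Commute (π (ι j' h)) (Q₂ j ψ))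
    (com₂ : ∀ j' j, j' ≠ j → ∀ ψ φ, Commute (Q₂ j' ψ) (Q₂ j φ))
    (j j' : J) (ψ : C₀(PG (k j) (N j + 1), ℂ)) (φ : C₀(PG (k j') (N j' + 1), ℂ)) :
    Commute (Q₁ j ψ) (Q₂ j' φ) := by
  letI : ∀ j, MeasurableSpace (PG (k j) (N j + 1)) := fun j => borel _
  haveI : ∀ j, BorelSpace (PG (k j) (N j + 1)) := fun j => ⟨rfl⟩
  haveI : ∀ j, (Measure.haar : Measure (PG (k j) (N j + 1))).IsMulRightInvariant := fun j =>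
    H626.rightInv_pg (k j) (N j + 1) _
  letI : TopologicalSpace E₀ := ⊥
  have f₁ := fl_of ph₁ h₁ pcm₁ com₁
  have f₂ := fl_of ph₂ h₂ pcm₂ com₂
  obtain ⟨QQ₁, J₁⟩ := f₁.joint
  obtain ⟨QQ₂, J₂⟩ := f₂.joint
  have key : ∀ (y : YY (k j) (N j)) f χ, Commute (E₁ j y f) (QQ₂ χ) := by
    intro y f χ
    haveI : Infinite (k j) := NontriviallyNormedField.infinite (k j)
    obtain ⟨⟨v, hv⟩, rfl⟩ := H820.pj_surj y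
    have e : sgm (σ₁ j) (N j + 1) (H820.pj (k j) (Fin (N j + 1)) ⟨v, hv⟩) =
        H820.pj (k j) (Fin (N j + 1)) ⟨sv (σ₁ j) v, sv_ne (σ₁ j) hv⟩ := rfl
    exact xc_factorF (fun j => (Measure.haar : Measure (PG (k j) (N j + 1))))
      (Measure.pi fun j => (Measure.haar : Measure (PG (k j) (N j + 1)))) hPic J₁ f₁.nd
      (disc_pi ph₁ disc₁) adj₂ J₂.nd J₂.cm J₂.cov J₂.pcov j
      (y := H820.pj (k j) (Fin (N j + 1)) ⟨sv (σ₁ j) v, sv_ne (σ₁ j) hv⟩)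
      (fun f ψ => (h₁ j).mulE _ f ψ _ fun x => rfl) (M := NN v)
      (fun u hu u' hu' => nn_comm v hu hu') (fun u hu => nn_fix (σ₁ j) hv hu)
      (disj_nn (σ₁ j) (H35.Sig.unb (σ₁ j)) _ (fun h x => rfl) hv) f χ
  refine J₂.comm (fun χ => ?_) j' φ
  exact ((h₁ j).gen (T := QQ₂ χ) (fun y f => (key y f χ).symm) ψ).symm

end pg

end Vale.Agent.P092.H862
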