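import Vale.Agent.P092.RC.Defs
import Vale.Agent.P092.H295.Trl
import Vale.Agent.P092.H295.PinA

/-!
P092, Team D, block [D-XC], row [XC-3] (helper862): uniqueness of the boundary map. Part 1: the main
estimate.
-/

set_option linter.all false

open scoped InnerProductSpace ENNReal ZeroAtInfty
open Filter Topology ContinuousLinearMap MeasureTheory

namespace Vale.Agent.P092.H862

open Vale.Agent.P092.RC (Cm TRN)
open Vale.Agent.P092.H295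

/-! ### Positive maps -/

section up

variable {P : Type*} [TopologicalSpace P] [CompactSpace P]
variable {K : Type*} [NormedAddCommGroup K] [InnerProductSpace ℂ K] [CompleteSpace K]

/-- unital, with the Kadison-Schwarz inequality -/
structure UP (E : C(P, ℂ) →ₗ[ℂ] (K →L[ℂ] K)) : Prop where
  one : E 1 = 1
  ks : ∀ f ζ, ‖E f ζ‖ ^ 2 ≤ (⟪ζ, E (star f * f) ζ⟫_ℂ).re

/-- complexification -/
noncomputable def cx (k : C(P, ℝ)) : C(P, ℂ) := ⟨fun x => (k x : ℂ), by fun_prop⟩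

/-- `|f|²` -/
noncomputable def nsq (f : C(P, ℂ)) : C(P, ℝ) := ⟨fun x => ‖f x‖ ^ 2, by fun_prop⟩

@[simp] theorem cx_apply (k : C(P, ℝ)) (x : P) : cx k x = (k x : ℂ) := rfl
@[simp] theorem nsq_apply (f : C(P, ℂ)) (x : P) : nsq f x = ‖f x‖ ^ 2 := rfl

theorem star_mul_nsq (f : C(P, ℂ)) : star f * f = cx (nsq f) := by
  ext x
  change (starRingEnd ℂ) (f x) * f x = ((‖f x‖ ^ 2 : ℝ) : ℂ)
  rw [← Complex.normSq_eq_conj_mul_self, Complex.normSq_eq_norm_sq]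

theorem cx_add (k k' : C(P, ℝ)) : cx (k + k') = cx k + cx k' := by
  ext x; simp

theorem cx_sub (k k' : C(P, ℝ)) : cx (k - k') = cx k - cx k' := by
  ext x; simp

theorem cx_smul (t : ℝ) (k : C(P, ℝ)) : cx (t • k) = (t : ℂ) • cx k := by
  ext x; simp

theorem cx_one : cx (1 : C(P, ℝ)) = 1 := by
  ext x; simp

variable {E : C(P, ℂ) →ₗ[ℂ] (K →L[ℂ] K)}

theorem UP.nonneg (h : UP E) {k : C(P, ℝ)} (hk : ∀ x, 0 ≤ k x) (ζ : K) :
    0 ≤ (⟪ζ, E (cx k) ζ⟫_ℂ).re := by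
  set r : C(P, ℝ) := ⟨fun x => Real.sqrt (k x), by fun_prop⟩ with hr
  have e : cx k = star (cx r) * cx r := by
    rw [star_mul_nsq]
    congr 1
    ext x
    rw [nsq_apply, cx_apply, Complex.norm_real, Real.norm_eq_abs, sq_abs]
    exact (Real.sq_sqrt (hk x)).symm
  rw [e]
  exact (sq_nonneg _).trans (h.ks _ _)

theorem UP.mono (h : UP E) {k k' : C(P, ℝ)} (hk : ∀ x, k x ≤ k' x) (ζ : K) :
    (⟪ζ, E (cx k) ζ⟫_ℂ).re ≤ (⟪ζ, E (cx k') ζ⟫_ℂ).re := by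
  have h1 := h.nonneg (k := k' - k) (fun x => sub_nonneg.2 (hk x)) ζ
  rw [cx_sub, map_sub, sub_apply, inner_sub_right, Complex.sub_re] at h1
  linarith

theorem UP.const (h : UP E) (t : ℝ) (ζ : K) :
    (⟪ζ, E (cx (t • (1 : C(P, ℝ)))) ζ⟫_ℂ).re = t * ‖ζ‖ ^ 2 := by
  rw [cx_smul, cx_one, map_smul, h.one, smul_apply, ContinuousLinearMap.one_apply, inner_smul_right,
    inner_self_eq_norm_sq_to_K, Complex.re_ofReal_mul]
  norm_cast

theorem UP.norm_le (h : UP E) (f : C(P, ℂ)) (ζ : K) : ‖E f ζ‖ ≤ ‖f‖ * ‖ζ‖ := by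
  have h1 := h.ks f ζ
  rw [star_mul_nsq] at h1
  have h2 := h.mono (k := nsq f) (k' := (‖f‖ ^ 2) • (1 : C(P, ℝ))) (fun x => by
    have := f.norm_coe_le_norm x
    simp only [nsq_apply, ContinuousMap.smul_apply, ContinuousMap.one_apply, smul_eq_mul, mul_one]
    gcongr) ζ
  rw [h.const] at h2
  have h3 : ‖E f ζ‖ ^ 2 ≤ (‖f‖ * ‖ζ‖) ^ 2 := by rw [mul_pow]; linarith
  exact (sq_le_sq₀ (norm_nonneg _) (by positivity)).1 h3

theorem UP.norm_le' (h : UP E) (f : C(P, ℂ)) : ‖E f‖ ≤ ‖f‖ :=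
  ContinuousLinearMap.opNorm_le_bound _ (norm_nonneg _) (h.norm_le f)

theorem UP.continuous (h : UP E) : Continuous E := by
  have : Continuous (LinearMap.mkContinuous E 1 (fun f => by rw [one_mul]; exact h.norm_le' f)) :=
    ContinuousLinearMap.continuous _
  exact this

end up

/-! ### Translations on the compact space -/

section tp

variable {G P : Type*} [Group G] [TopologicalSpace G] [IsTopologicalGroup G] [TopologicalSpace P]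
  [CompactSpace P] [MulAction G P] [ContinuousSMul G P]

/-- `(tp g f) x = f (g⁻¹ x)` -/
noncomputable def tp (g : G) (f : C(P, ℂ)) : C(P, ℂ) := ⟨fun x => f (g⁻¹ • x), by fun_prop⟩

/-- real version -/
noncomputable def tpr (g : G) (f : C(P, ℝ)) : C(P, ℝ) := ⟨fun x => f (g⁻¹ • x), by fun_prop⟩

@[simp] theorem tp_apply (g : G) (f : C(P, ℂ)) (x : P) : tp g f x = f (g⁻¹ • x) := rfl
@[simp] theorem tpr_apply (g : G) (f : C(P, ℝ)) (x : P) : tpr g f x = f (g⁻¹ • x) := rfl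

theorem tp_cx (g : G) (k : C(P, ℝ)) : tp g (cx k) = cx (tpr g k) := rfl

theorem tp_tp (g h : G) (f : C(P, ℂ)) : tp g (tp h f) = tp (g * h) f := by
  ext x
  simp [mul_smul]

theorem tp_one (f : C(P, ℂ)) : tp (1 : G) f = f := by
  ext x
  simp

theorem norm_tp_le (g : G) (f : C(P, ℂ)) : ‖tp g f‖ ≤ ‖f‖ :=
  (ContinuousMap.norm_le _ (norm_nonneg _)).2 fun x => f.norm_coe_le_norm _

theorem continuous_tp (f : C(P, ℂ)) : Continuous fun g : G => tp g f := by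
  let F : C(G × P, ℂ) := ⟨fun p => f (p.1⁻¹ • p.2), by fun_prop⟩
  exact F.curry.continuous

end tp

/-! ### The leg -/

section leg

variable {G Γ : Type} [Group G] [TopologicalSpace G] [IsTopologicalGroup G]
  [SecondCountableTopology G] [MeasurableSpace G] [BorelSpace G] [Group Γ]
variable {K : Type} [NormedAddCommGroup K] [InnerProductSpace ℂ K] [CompleteSpace K]

/-- a classical leg, with the trace properties -/
structure Lg (μ : Measure G) (π : G →* (K →L[ℂ] K)) (lam : Γ →* (K →L[ℂ] K))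
    (W : Set (K →L[ℂ] K)) (Ω : K) (q : Γ →* G) (Φ : C₀(G, ℂ) →⋆ₙₐ[ℂ] (K →L[ℂ] K)) : Prop where
  adjP : ∀ g, adjoint (π g) = π g⁻¹
  adjL : ∀ γ, adjoint (lam γ) = lam γ⁻¹
  Wadj : ∀ w ∈ W, adjoint w ∈ W
  nΩ : ‖Ω‖ = 1
  tr_adj : ∀ T, Cm W T → TRN lam Ω (adjoint T) = TRN lam Ω T
  tr_zero : ∀ T, Cm W T → TRN lam Ω T = 0 → T = 0
  tv : ∀ Y, Cm W Y → (∀ γ, Y * lam γ = lam γ * Y) → ∀ h, ⟪π h Ω, Y (π h Ω)⟫_ℂ = ⟪Ω, Y Ω⟫_ℂ
  cm : ∀ c, Cm W (Φ c)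
  cov : ∀ γ c, lam γ * Φ c * lam γ⁻¹ = Φ (ltr (q γ) c)
  pcov : ∀ h c, π h * Φ c * π h⁻¹ = Φ (rtr h c)
  sq : ∀ c : C₀(G, ℂ), HasCompactSupport c → ∀ ξ,
    ∫⁻ g, ‖Φ (ltr g c) ξ‖ₑ ^ 2 ∂μ = (∫⁻ g, ‖c g‖ₑ ^ 2 ∂μ) * ‖ξ‖ₑ ^ 2

variable {μ : Measure G} {π : G →* (K →L[ℂ] K)} {lam : Γ →* (K →L[ℂ] K)}
  {W : Set (K →L[ℂ] K)} {Ω : K} {q : Γ →* G} {Φ : C₀(G, ℂ) →⋆ₙₐ[ℂ] (K →L[ℂ] K)}

theorem cm_mul {S T : K →L[ℂ] K} (hS : Cm W S) (hT : Cm W T) : Cm W (S * T) := by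
  intro w hw
  rw [mul_assoc, hT w hw, ← mul_assoc, hS w hw, mul_assoc]

theorem cm_sub {S T : K →L[ℂ] K} (hS : Cm W S) (hT : Cm W T) : Cm W (S - T) := by
  intro w hw
  rw [sub_mul, mul_sub, hS w hw, hT w hw]

theorem cm_scal (z : ℂ) : Cm W (z • (1 : K →L[ℂ] K)) := by
  intro w hw
  rw [smul_mul_assoc, mul_smul_comm, one_mul, mul_one]

theorem adj_mul (S T : K →L[ℂ] K) : adjoint (S * T) = adjoint T * adjoint S := star_mul S T

theorem cm_adj (hW : ∀ w ∈ W, adjoint w ∈ W) {T : K →L[ℂ] K} (hT : Cm W T) :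
    Cm W (adjoint T) := by
  intro w hw
  have h := congrArg adjoint (hT _ (hW w hw))
  rw [adj_mul, adj_mul, adjoint_adjoint] at h
  exact h.symm

theorem trn_mul_le (Y T : K →L[ℂ] K) : TRN lam Ω (Y * T) ≤ ‖Y‖ₑ ^ 2 * TRN lam Ω T := by
  unfold TRN
  rw [← ENNReal.tsum_mul_left]
  refine ENNReal.tsum_le_tsum fun γ => ?_
  rw [← mul_pow]
  gcongr
  exact Y.le_opNorm_enorm _

theorem trn_add_le (S T : K →L[ℂ] K) :
    TRN lam Ω (S + T) ≤ 2 * TRN lam Ω S + 2 * TRN lam Ω T := by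
  unfold TRN
  rw [← ENNReal.tsum_mul_left, ← ENNReal.tsum_mul_left, ← ENNReal.tsum_add]
  refine ENNReal.tsum_le_tsum fun γ => ?_
  have h1 : ‖(S + T) (lam γ Ω)‖ₑ ≤ ‖S (lam γ Ω)‖ₑ + ‖T (lam γ Ω)‖ₑ := enorm_add_le _ _
  calc ‖(S + T) (lam γ Ω)‖ₑ ^ 2 ≤ (‖S (lam γ Ω)‖ₑ + ‖T (lam γ Ω)‖ₑ) ^ 2 := by gcongr
    _ ≤ 2 * ‖S (lam γ Ω)‖ₑ ^ 2 + 2 * ‖T (lam γ Ω)‖ₑ ^ 2 := by
        rw [enorm_eq_nnnorm, enorm_eq_nnnorm, ← mul_add]
        exact_mod_cast (add_sq_le : (‖S (lam γ Ω)‖₊ + ‖T (lam γ Ω)‖₊) ^ 2 ≤ _)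

namespace Lg

variable (h : Lg μ π lam W Ω q Φ)
include h

theorem trn_right_le {X Y : K →L[ℂ] K} (hX : Cm W X) (hY : Cm W Y) :
    TRN lam Ω (X * Y) ≤ ‖Y‖ₑ ^ 2 * TRN lam Ω X := by
  rw [← h.tr_adj _ (cm_mul hX hY), adj_mul, ← h.tr_adj _ hX]
  refine (trn_mul_le _ _).trans (le_of_eq ?_)
  have : ‖adjoint Y‖ₑ = ‖Y‖ₑ := by
    rw [← ofReal_norm_eq_enorm, ← ofReal_norm_eq_enorm, LinearIsometryEquiv.norm_map]
  rw [this]

theorem cont_sl (c : C₀(G, ℂ)) (ξ : K) : Continuous fun g => Φ (ltr g c) ξ :=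
  ((continuous_map Φ).comp (continuous_ltr c)).clm_apply continuous_const

theorem adj_s {c : C₀(G, ℂ)} (hr : star c = c) (g : G) : adjoint (Φ (ltr g c)) = Φ (ltr g c) := by
  rw [adj_map, ← ltr_star, hr]

/-- the trace norm is an average over the pinched operators -/
theorem trn_int [Countable Γ] {c : C₀(G, ℂ)} (hc : HasCompactSupport c) (hr : star c = c)
    (h1 : ∫⁻ g, ‖c g‖ₑ ^ 2 ∂μ = 1) {T : K →L[ℂ] K} (hT : Cm W T) :
    TRN lam Ω T = ∫⁻ g, TRN lam Ω (T * Φ (ltr g c)) ∂μ := by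
  have e1 : ∀ g, TRN lam Ω (T * Φ (ltr g c)) =
      ∑' γ, ‖Φ (ltr g c) (adjoint T (lam γ Ω))‖ₑ ^ 2 := by
    intro g
    rw [← h.tr_adj _ (cm_mul hT (h.cm _)), adj_mul, h.adj_s hr]
    rfl
  simp_rw [e1]
  rw [lintegral_tsum]
  · simp_rw [h.sq c hc, h1, one_mul]
    exact (h.tr_adj T hT).symm
  · intro γ
    exact ((h.cont_sl c _).enorm.measurable.pow_const 2).aemeasurable

end Lg

end leg

end Vale.Agent.P092.H862
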