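import Vale.Agent.P092.H862.Uq

/-!
P092, Team D, block [D-XC], row [XC-3] (helper862): uniqueness of the boundary map. Part 2: the main
estimate.
-/

set_option linter.all false

open scoped InnerProductSpace ENNReal ZeroAtInfty
open Filter Topology ContinuousLinearMap MeasureTheory

namespace Vale.Agent.P092.H862

open Vale.Agent.P092.RC (Cm TRN)
open Vale.Agent.P092.H295

variable {G Γ : Type} [Group G] [TopologicalSpace G] [IsTopologicalGroup G]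
  [SecondCountableTopology G] [MeasurableSpace G] [BorelSpace G] [Group Γ]
variable {K : Type} [NormedAddCommGroup K] [InnerProductSpace ℂ K] [CompleteSpace K]
variable {P : Type} [TopologicalSpace P] [CompactSpace P] [MulAction G P] [ContinuousSMul G P]
variable {μ : Measure G} {π : G →* (K →L[ℂ] K)} {lam : Γ →* (K →L[ℂ] K)}
  {W : Set (K →L[ℂ] K)} {Ω : K} {q : Γ →* G} {Φ : C₀(G, ℂ) →⋆ₙₐ[ℂ] (K →L[ℂ] K)}

/-- the candidate boundary map -/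
structure Mp (π : G →* (K →L[ℂ] K)) (lam : Γ →* (K →L[ℂ] K)) (W : Set (K →L[ℂ] K)) (q : Γ →* G)
    (u : G) (E : C(P, ℂ) →ₗ[ℂ] (K →L[ℂ] K)) : Prop where
  up : UP E
  cm : ∀ f, Cm W (E f)
  com : ∀ f, π u * E f = E f * π u
  cov : ∀ γ f, lam γ * E f * lam γ⁻¹ = E (tp (q γ) f)

variable {u : G} {E : C(P, ℂ) →ₗ[ℂ] (K →L[ℂ] K)}

/-- the density of the state `al` -/
noncomputable def dn (Φ : C₀(G, ℂ) →⋆ₙₐ[ℂ] (K →L[ℂ] K)) (Ω : K)
    (E : C(P, ℂ) →ₗ[ℂ] (K →L[ℂ] K)) (c : C₀(G, ℂ)) (k : C(P, ℝ)) (g : G) : ℝ :=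
  (⟪Φ (ltr g c) Ω, E (tp g (cx k)) (Φ (ltr g c) Ω)⟫_ℂ).re

theorem dn_nonneg (hE : UP E) (c : C₀(G, ℂ)) {k : C(P, ℝ)} (hk : ∀ x, 0 ≤ k x) (g : G) :
    0 ≤ dn Φ Ω E c k g := by
  unfold dn
  rw [tp_cx]
  exact hE.nonneg (k := tpr g k) (fun x => hk _) _

theorem dn_cont (hE : UP E) (c : C₀(G, ℂ)) (k : C(P, ℝ)) : Continuous (dn Φ Ω E c k) := by
  have h1 : Continuous fun g => Φ (ltr g c) Ω :=
    ((continuous_map Φ).comp (continuous_ltr c)).clm_apply continuous_const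
  have h2 : Continuous fun g : G => E (tp g (cx k)) := hE.continuous.comp (continuous_tp _)
  exact Complex.continuous_re.comp (h1.inner (h2.clm_apply h1))

theorem lam_inv (lam : Γ →* (K →L[ℂ] K)) (γ : Γ) (v : K) : lam γ⁻¹ (lam γ v) = v := by
  have h := congrArg (fun T : K →L[ℂ] K => T v) (map_mul lam γ⁻¹ γ)
  simp only [inv_mul_cancel, map_one] at h
  exact h.symm

theorem inner_lam (hL : ∀ γ, adjoint (lam γ) = lam γ⁻¹) (γ : Γ) (v w : K) :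
    ⟪lam γ v, lam γ w⟫_ℂ = ⟪v, w⟫_ℂ := by
  rw [← adjoint_inner_right, hL, lam_inv]

theorem norm_lam (hL : ∀ γ, adjoint (lam γ) = lam γ⁻¹) (γ : Γ) (v : K) : ‖lam γ v‖ = ‖v‖ := by
  have h := inner_lam hL γ v v
  rw [inner_self_eq_norm_sq_to_K, inner_self_eq_norm_sq_to_K] at h
  have h2 : ‖lam γ v‖ ^ 2 = ‖v‖ ^ 2 := by exact_mod_cast h
  exact (sq_eq_sq₀ (norm_nonneg _) (norm_nonneg _)).1 h2

namespace Lg

variable (h : Lg μ π lam W Ω q Φ)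
include h

theorem s_lam (γ : Γ) (g : G) (c : C₀(G, ℂ)) (v : K) :
    Φ (ltr g c) (lam γ v) = lam γ (Φ (ltr ((q γ)⁻¹ * g) c) v) := by
  have h1 := h.cov γ (ltr ((q γ)⁻¹ * g) c)
  rw [← ltr_mul, mul_inv_cancel_left] at h1
  rw [← h1]
  change lam γ (Φ _ (lam γ⁻¹ (lam γ v))) = _
  rw [lam_inv]

theorem e_lam (hE : Mp π lam W q u E) (γ : Γ) (g : G) (f : C(P, ℂ)) (v : K) :
    E (tp g f) (lam γ v) = lam γ (E (tp ((q γ)⁻¹ * g) f) v) := by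
  have h1 := hE.cov γ (tp ((q γ)⁻¹ * g) f)
  rw [tp_tp, mul_inv_cancel_left] at h1
  rw [← h1]
  change lam γ (E _ (lam γ⁻¹ (lam γ v))) = _
  rw [lam_inv]

theorem dn_lam (hE : Mp π lam W q u E) (γ : Γ) (g : G) (c : C₀(G, ℂ)) (k : C(P, ℝ)) :
    (⟪Φ (ltr g c) (lam γ Ω), E (tp g (cx k)) (Φ (ltr g c) (lam γ Ω))⟫_ℂ).re =
      dn Φ Ω E c k ((q γ)⁻¹ * g) := by
  rw [h.s_lam, h.e_lam hE, inner_lam h.adjL]
  rfl

theorem nrm_lam (γ : Γ) (g : G) (c : C₀(G, ℂ)) :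
    ‖Φ (ltr g c) (lam γ Ω)‖ = ‖Φ (ltr ((q γ)⁻¹ * g) c) Ω‖ := by
  rw [h.s_lam, norm_lam h.adjL]

omit h in
/-- unfolding -/
theorem unfold [Countable Γ] [μ.IsMulLeftInvariant] {C : Set G} (hC : MeasurableSet C)
    {N : ℝ≥0∞} (hN : ∀ g, ∑' γ, C.indicator (1 : G → ℝ≥0∞) (q γ * g) ≤ N) {F : G → ℝ≥0∞}
    (hF : Measurable F) :
    ∫⁻ g in C, ∑' γ, F ((q γ)⁻¹ * g) ∂μ ≤ N * ∫⁻ g, F g ∂μ := by
  have h1 : ∫⁻ g in C, ∑' γ, F ((q γ)⁻¹ * g) ∂μ =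
      ∫⁻ g, ∑' γ, C.indicator (1 : G → ℝ≥0∞) g * F ((q γ)⁻¹ * g) ∂μ := by
    rw [← lintegral_indicator hC]
    refine lintegral_congr fun g => ?_
    rw [ENNReal.tsum_mul_left]
    by_cases hg : g ∈ C
    · rw [Set.indicator_of_mem hg, Set.indicator_of_mem hg, Pi.one_apply, one_mul]
    · rw [Set.indicator_of_notMem hg, Set.indicator_of_notMem hg, zero_mul]
  have hm1 : Measurable (C.indicator (1 : G → ℝ≥0∞)) := measurable_one.indicator hC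
  have h3 : ∀ γ, Measurable fun g => C.indicator (1 : G → ℝ≥0∞) g * F ((q γ)⁻¹ * g) := fun γ =>
    hm1.mul (hF.comp (measurable_const_mul _))
  have h4 : ∀ γ, Measurable fun g => C.indicator (1 : G → ℝ≥0∞) (q γ * g) * F g := fun γ =>
    (hm1.comp (measurable_const_mul _)).mul hF
  rw [h1, lintegral_tsum (fun γ => (h3 γ).aemeasurable)]
  have h2 : ∀ γ, ∫⁻ g, C.indicator (1 : G → ℝ≥0∞) g * F ((q γ)⁻¹ * g) ∂μ =
      ∫⁻ g, C.indicator (1 : G → ℝ≥0∞) (q γ * g) * F g ∂μ := by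
    intro γ
    rw [← lintegral_mul_left_eq_self
      (fun g => C.indicator (1 : G → ℝ≥0∞) g * F ((q γ)⁻¹ * g)) (q γ)]
    refine lintegral_congr fun g => ?_
    rw [inv_mul_cancel_left]
  simp_rw [h2]
  rw [← lintegral_tsum (fun γ => (h4 γ).aemeasurable), ← lintegral_const_mul _ hF]
  refine lintegral_mono fun g => ?_
  rw [ENNReal.tsum_mul_right]
  gcongr
  exact hN g

end Lg

end Vale.Agent.P092.H862
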