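import Vale.Agent.P092.H862.Uq3
import Vale.Agent.P092.H325.StateEq

/-!
P092, Team D, block [D-XC], row [XC-3] (helper862): uniqueness of the boundary map. Part 4: the
state and its invariance.
-/

set_option linter.all false

open scoped InnerProductSpace ENNReal ZeroAtInfty
open Filter Topology ContinuousLinearMap MeasureTheory

namespace Vale.Agent.P092.H862

open Vale.Agent.P092.RC (Cm TRN)
open Vale.Agent.P092.H295

section mix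

variable {G : Type*} [MeasurableSpace G] {μ : Measure G}
  {K : Type*} [NormedAddCommGroup K] [InnerProductSpace ℂ K] [CompleteSpace K]

theorem inner_mix {S S' : G → K →L[ℂ] K} {C C' : ℝ} (hS : SqF μ S C) (hS' : SqF μ S' C')
    (x z : K) : ⟪x, (adjoint hS.col ∘L hS'.col) z⟫_ℂ = ∫ g, ⟪S g x, S' g z⟫_ℂ ∂μ := by
  rw [ContinuousLinearMap.comp_apply, adjoint_inner_right, L2.inner_def]
  refine integral_congr_ae ?_
  filter_upwards [hS.col_apply x, hS'.col_apply z] with g h1 h2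
  rw [h1, h2]

theorem int_mix {S S' : G → K →L[ℂ] K} {C C' : ℝ} (hS : SqF μ S C) (hS' : SqF μ S' C')
    (x z : K) : Integrable (fun g => ⟪S g x, S' g z⟫_ℂ) μ := by
  refine (L2.integrable_inner (𝕜 := ℂ) (hS.col x) (hS'.col z)).congr ?_
  filter_upwards [hS.col_apply x, hS'.col_apply z] with g h1 h2
  rw [h1, h2]

end mix

variable {G Γ : Type} [Group G] [TopologicalSpace G] [IsTopologicalGroup G]
  [SecondCountableTopology G] [MeasurableSpace G] [BorelSpace G] [Group Γ]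
variable {K : Type} [NormedAddCommGroup K] [InnerProductSpace ℂ K] [CompleteSpace K]
variable {P : Type} [TopologicalSpace P] [CompactSpace P] [MulAction G P] [ContinuousSMul G P]
variable {μ : Measure G} {π : G →* (K →L[ℂ] K)} {lam : Γ →* (K →L[ℂ] K)}
  {W : Set (K →L[ℂ] K)} {Ω : K} {q : Γ →* G} {Φ : C₀(G, ℂ) →⋆ₙₐ[ℂ] (K →L[ℂ] K)}
variable {u : G} {E : C(P, ℂ) →ₗ[ℂ] (K →L[ℂ] K)}

/-- the state -/
noncomputable def al (μ : Measure G) (Φ : C₀(G, ℂ) →⋆ₙₐ[ℂ] (K →L[ℂ] K)) (Ω : K)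
    (E : C(P, ℂ) →ₗ[ℂ] (K →L[ℂ] K)) (c : C₀(G, ℂ)) (k : C(P, ℝ)) : ℝ :=
  ∫ g, dn Φ Ω E c k g ∂μ

theorem norm_cx (k : C(P, ℝ)) : ‖cx k‖ ≤ ‖k‖ :=
  (ContinuousMap.norm_le _ (norm_nonneg _)).2 fun x => by
    rw [cx_apply, Complex.norm_real]
    exact k.norm_coe_le_norm x

namespace Lg

variable (h : Lg μ π lam W Ω q Φ)
include h

/-- normalised bumps -/
theorem sqF {c : C₀(G, ℂ)} (hc : HasCompactSupport c) {t : ℝ} (ht : 0 ≤ t)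
    (h1 : ∫⁻ g, ‖c g‖ₑ ^ 2 ∂μ ≤ ENNReal.ofReal (t ^ 2)) :
    SqF μ (fun g => Φ (ltr g c)) t where
  meas ξ := (h.cont_sl c ξ).aestronglyMeasurable
  nn := ht
  le ξ := by
    rw [h.sq c hc, ENNReal.ofReal_mul (by positivity), ← ofReal_norm_eq_enorm,
      ← ENNReal.ofReal_pow (norm_nonneg _)]
    gcongr

theorem sqFE (hE : UP E) {c : C₀(G, ℂ)} (hc : HasCompactSupport c) {t : ℝ} (ht : 0 ≤ t)
    (h1 : ∫⁻ g, ‖c g‖ₑ ^ 2 ∂μ ≤ ENNReal.ofReal (t ^ 2)) (k : C(P, ℝ)) :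
    SqF μ (fun g => E (tp g (cx k)) * Φ (ltr g c)) (‖k‖ * t) where
  meas ξ := by
    have h2 : Continuous fun g : G => E (tp g (cx k)) := hE.continuous.comp (continuous_tp _)
    exact (h2.clm_apply (h.cont_sl c ξ)).aestronglyMeasurable
  nn := by positivity
  le ξ := by
    have h3 : ∀ g, ‖(E (tp g (cx k)) * Φ (ltr g c)) ξ‖ₑ ^ 2 ≤
        ENNReal.ofReal (‖k‖ ^ 2) * ‖Φ (ltr g c) ξ‖ₑ ^ 2 := by
      intro g
      rw [ENNReal.ofReal_pow (norm_nonneg _), ← mul_pow]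
      gcongr
      change ‖E (tp g (cx k)) (Φ (ltr g c) ξ)‖ₑ ≤ _
      rw [← ofReal_norm_eq_enorm, ← ofReal_norm_eq_enorm, ← ENNReal.ofReal_mul (norm_nonneg _)]
      refine ENNReal.ofReal_le_ofReal ((hE.norm_le _ _).trans ?_)
      gcongr
      exact (norm_tp_le _ _).trans (norm_cx k)
    refine (lintegral_mono h3).trans ?_
    rw [lintegral_const_mul' _ _ ENNReal.ofReal_ne_top, mul_pow, mul_assoc,
      ENNReal.ofReal_mul (p := ‖k‖ ^ 2) (by positivity)]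
    gcongr
    exact (h.sqF hc ht h1).le ξ

theorem int_dn (hE : UP E) {c : C₀(G, ℂ)} (hc : HasCompactSupport c) {t : ℝ} (ht : 0 ≤ t)
    (h1 : ∫⁻ g, ‖c g‖ₑ ^ 2 ∂μ ≤ ENNReal.ofReal (t ^ 2)) (k : C(P, ℝ)) :
    Integrable (dn Φ Ω E c k) μ :=
  (int_mix (h.sqF hc ht h1) (h.sqFE hE hc ht h1 k) Ω Ω).re

theorem al_eq (hE : UP E) {c : C₀(G, ℂ)} (hc : HasCompactSupport c) {t : ℝ} (ht : 0 ≤ t)
    (h1 : ∫⁻ g, ‖c g‖ₑ ^ 2 ∂μ ≤ ENNReal.ofReal (t ^ 2)) (k : C(P, ℝ)) :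
    al μ Φ Ω E c k =
      (⟪Ω, (adjoint (h.sqF hc ht h1).col ∘L (h.sqFE hE hc ht h1 k).col) Ω⟫_ℂ).re := by
  rw [inner_mix]
  exact integral_re (int_mix (h.sqF hc ht h1) (h.sqFE hE hc ht h1 k) Ω Ω)

theorem s_lam' (γ : Γ) (g : G) (c : C₀(G, ℂ)) (v : K) :
    lam γ (Φ (ltr g c) v) = Φ (ltr (q γ * g) c) (lam γ v) := by
  rw [h.s_lam, inv_mul_cancel_left]

theorem e_lam' (hE : Mp π lam W q u E) (γ : Γ) (g : G) (f : C(P, ℂ)) (v : K) :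
    lam γ (E (tp g f) v) = E (tp (q γ * g) f) (lam γ v) := by
  rw [h.e_lam hE, inv_mul_cancel_left]

/-- **the operator `Ξ` is in the fixed algebra** -/
theorem xi_cm (hE : Mp π lam W q u E) {c : C₀(G, ℂ)} (hc : HasCompactSupport c) {t : ℝ}
    (ht : 0 ≤ t) (h1 : ∫⁻ g, ‖c g‖ₑ ^ 2 ∂μ ≤ ENNReal.ofReal (t ^ 2)) (k : C(P, ℝ)) :
    Cm W (adjoint (h.sqF hc ht h1).col ∘L (h.sqFE hE.up hc ht h1 k).col) := by
  intro w hw
  refine ext_inner' fun x z => ?_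
  have e1 : ⟪x, (w * (adjoint (h.sqF hc ht h1).col ∘L (h.sqFE hE.up hc ht h1 k).col)) z⟫_ℂ =
      ⟪adjoint w x, (adjoint (h.sqF hc ht h1).col ∘L (h.sqFE hE.up hc ht h1 k).col) z⟫_ℂ := by
    rw [adjoint_inner_left]
    rfl
  have e2 : ⟪x, ((adjoint (h.sqF hc ht h1).col ∘L (h.sqFE hE.up hc ht h1 k).col) * w) z⟫_ℂ =
      ⟪x, (adjoint (h.sqF hc ht h1).col ∘L (h.sqFE hE.up hc ht h1 k).col) (w z)⟫_ℂ := rfl
  rw [e1, e2, inner_mix, inner_mix]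
  refine integral_congr_ae (Eventually.of_forall fun g => ?_)
  change ⟪Φ (ltr g c) x, (E (tp g (cx k)) * Φ (ltr g c)) (w z)⟫_ℂ =
    ⟪Φ (ltr g c) (adjoint w x), (E (tp g (cx k)) * Φ (ltr g c)) z⟫_ℂ
  have e3 : (E (tp g (cx k)) * Φ (ltr g c)) (w z) = w ((E (tp g (cx k)) * Φ (ltr g c)) z) :=
    congrArg (fun T : K →L[ℂ] K => T z) (cm_mul (hE.cm _) (h.cm _) w hw)
  have e4 : Φ (ltr g c) (adjoint w x) = adjoint w (Φ (ltr g c) x) :=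
    congrArg (fun T : K →L[ℂ] K => T x) (h.cm _ _ (h.Wadj w hw))
  rw [e3, e4, adjoint_inner_left]

theorem xi_lam [μ.IsMulLeftInvariant] (hE : Mp π lam W q u E) {c : C₀(G, ℂ)}
    (hc : HasCompactSupport c) {t : ℝ} (ht : 0 ≤ t)
    (h1 : ∫⁻ g, ‖c g‖ₑ ^ 2 ∂μ ≤ ENNReal.ofReal (t ^ 2)) (k : C(P, ℝ)) (γ : Γ) :
    (adjoint (h.sqF hc ht h1).col ∘L (h.sqFE hE.up hc ht h1 k).col) * lam γ =
      lam γ * (adjoint (h.sqF hc ht h1).col ∘L (h.sqFE hE.up hc ht h1 k).col) := by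
  refine ext_inner' fun x z => ?_
  have e1 : ⟪x, (lam γ * (adjoint (h.sqF hc ht h1).col ∘L (h.sqFE hE.up hc ht h1 k).col)) z⟫_ℂ =
      ⟪lam γ⁻¹ x, (adjoint (h.sqF hc ht h1).col ∘L (h.sqFE hE.up hc ht h1 k).col) z⟫_ℂ := by
    rw [← h.adjL, adjoint_inner_left]
    rfl
  have e2 : ⟪x, ((adjoint (h.sqF hc ht h1).col ∘L (h.sqFE hE.up hc ht h1 k).col) * lam γ) z⟫_ℂ =
      ⟪x, (adjoint (h.sqF hc ht h1).col ∘L (h.sqFE hE.up hc ht h1 k).col) (lam γ z)⟫_ℂ := rfl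
  rw [e1, e2, inner_mix, inner_mix, ← integral_mul_left_eq_self
    (fun g => ⟪Φ (ltr g c) x, (E (tp g (cx k)) * Φ (ltr g c)) (lam γ z)⟫_ℂ) (q γ)]
  refine integral_congr_ae (Eventually.of_forall fun g => ?_)
  change ⟪Φ (ltr (q γ * g) c) x, E (tp (q γ * g) (cx k)) (Φ (ltr (q γ * g) c) (lam γ z))⟫_ℂ =
    ⟪Φ (ltr g c) (lam γ⁻¹ x), E (tp g (cx k)) (Φ (ltr g c) z)⟫_ℂ
  rw [← h.s_lam', ← h.e_lam' hE, ← adjoint_inner_left, h.adjL]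
  congr 1
  have := h.s_lam' γ⁻¹ (q γ * g) c x
  rw [this, map_inv, inv_mul_cancel_left]

end Lg

end Vale.Agent.P092.H862
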