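import Vale.Agent.P092.H862.Uq4

/-!
P092, Team D, block [D-XC], row [XC-3] (helper862): uniqueness of the boundary map. Part 5: the
invariance of the state.
-/

set_option linter.all false

open scoped InnerProductSpace ENNReal ZeroAtInfty
open Filter Topology ContinuousLinearMap MeasureTheory

namespace Vale.Agent.P092.H862

open Vale.Agent.P092.RC (Cm TRN)
open Vale.Agent.P092.H295

variable {G Γ : Type} [Group G] [TopologicalSpace G] [IsTopologicalGroup G]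
  [SecondCountableTopology G] [MeasurableSpace G] [BorelSpace G] [Group Γ]
variable {K : Type} [NormedAddCommGroup K] [InnerProductSpace ℂ K] [CompleteSpace K]
variable {P : Type} [TopologicalSpace P] [CompactSpace P] [MulAction G P] [ContinuousSMul G P]
variable {μ : Measure G} {π : G →* (K →L[ℂ] K)} {lam : Γ →* (K →L[ℂ] K)}
  {W : Set (K →L[ℂ] K)} {Ω : K} {q : Γ →* G} {Φ : C₀(G, ℂ) →⋆ₙₐ[ℂ] (K →L[ℂ] K)}
variable {u : G} {E : C(P, ℂ) →ₗ[ℂ] (K →L[ℂ] K)}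

theorem pi_inv (π : G →* (K →L[ℂ] K)) (g : G) (v : K) : π g⁻¹ (π g v) = v := by
  have h := congrArg (fun T : K →L[ℂ] K => T v) (map_mul π g⁻¹ g)
  simp only [inv_mul_cancel, map_one] at h
  exact h.symm

theorem inner_pi (hP : ∀ g, adjoint (π g) = π g⁻¹) (g : G) (v w : K) :
    ⟪π g v, π g w⟫_ℂ = ⟪v, w⟫_ℂ := by
  rw [← adjoint_inner_right, hP, pi_inv]

namespace Lg

variable (h : Lg μ π lam W Ω q Φ)
include h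

theorem s_pi (g : G) (c : C₀(G, ℂ)) (v : K) :
    Φ (ltr g c) (π u⁻¹ v) = π u⁻¹ (Φ (ltr (g * u⁻¹) (cj u c)) v) := by
  have h1 := h.pcov u (ltr g c)
  rw [rtr_ltr] at h1
  rw [← h1]
  change _ = π u⁻¹ (π u (Φ (ltr g c) (π u⁻¹ v)))
  rw [pi_inv]

omit h in
theorem e_pi (hE : Mp π lam W q u E) (f : C(P, ℂ)) (v : K) :
    E f (π u⁻¹ v) = π u⁻¹ (E f v) := by
  have h1 := congrArg (fun T : K →L[ℂ] K => T (π u⁻¹ v)) (hE.com f)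
  change π u (E f (π u⁻¹ v)) = E f (π u (π u⁻¹ v)) at h1
  have h2 : π u (π u⁻¹ v) = v := by
    have := pi_inv π u⁻¹ v
    rwa [inv_inv] at this
  rw [h2] at h1
  rw [← h1, pi_inv]

/-- **(TV) gives the invariance of the state** -/
theorem al_cj [μ.IsMulLeftInvariant] [μ.IsMulRightInvariant] (hE : Mp π lam W q u E) {c : C₀(G, ℂ)}
    (hc : HasCompactSupport c) {t : ℝ} (ht : 0 ≤ t)
    (h1 : ∫⁻ g, ‖c g‖ₑ ^ 2 ∂μ ≤ ENNReal.ofReal (t ^ 2)) (k : C(P, ℝ)) :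
    al μ Φ Ω E (cj u c) (tpr u k) = al μ Φ Ω E c k := by
  rw [h.al_eq hE.up hc ht h1, ← h.tv _ (h.xi_cm hE hc ht h1 k) (h.xi_lam hE hc ht h1 k) u⁻¹,
    inner_mix]
  have e0 := integral_re (int_mix (h.sqF hc ht h1) (h.sqFE hE.up hc ht h1 k) (π u⁻¹ Ω) (π u⁻¹ Ω))
  refine Eq.trans ?_ e0
  unfold al
  rw [← integral_mul_right_eq_self (dn Φ Ω E (cj u c) (tpr u k)) u⁻¹]
  refine integral_congr_ae (Eventually.of_forall fun g => ?_)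
  change dn Φ Ω E (cj u c) (tpr u k) (g * u⁻¹) =
    (⟪Φ (ltr g c) (π u⁻¹ Ω), E (tp g (cx k)) (Φ (ltr g c) (π u⁻¹ Ω))⟫_ℂ).re
  rw [h.s_pi, e_pi hE, inner_pi h.adjP]
  unfold dn
  rw [← tp_cx, tp_tp, inv_mul_cancel_right]

end Lg

/-- perturbation of a quadratic form -/
theorem form_close (T : K →L[ℂ] K) {M : ℝ} (hM : ‖T‖ ≤ M) (a b : K) {δ : ℝ} (hδ : 0 < δ) :
    |(⟪a, T a⟫_ℂ).re - (⟪b, T b⟫_ℂ).re| ≤ M * (δ⁻¹ * ‖a - b‖ ^ 2 + δ * (‖a‖ ^ 2 + ‖b‖ ^ 2)) := by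
  have hM0 : 0 ≤ M := (norm_nonneg _).trans hM
  have e : ⟪a, T a⟫_ℂ - ⟪b, T b⟫_ℂ = ⟪a - b, T a⟫_ℂ + ⟪b, T (a - b)⟫_ℂ := by
    rw [inner_sub_left, map_sub, inner_sub_right]; ring
  have h1 : ‖⟪a - b, T a⟫_ℂ‖ ≤ ‖a - b‖ * (M * ‖a‖) :=
    (norm_inner_le_norm _ _).trans (by
      gcongr
      exact T.le_of_opNorm_le hM a)
  have h2 : ‖⟪b, T (a - b)⟫_ℂ‖ ≤ ‖b‖ * (M * ‖a - b‖) :=
    (norm_inner_le_norm _ _).trans (by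
      gcongr
      exact T.le_of_opNorm_le hM _)
  have h3 : |(⟪a, T a⟫_ℂ).re - (⟪b, T b⟫_ℂ).re| ≤ ‖⟪a, T a⟫_ℂ - ⟪b, T b⟫_ℂ‖ := by
    rw [← Complex.sub_re]
    exact Complex.abs_re_le_norm _
  have h4 : ‖a - b‖ * ‖a‖ + ‖a - b‖ * ‖b‖ ≤ δ⁻¹ * ‖a - b‖ ^ 2 + δ * (‖a‖ ^ 2 + ‖b‖ ^ 2) := by
    have key : ∀ x y : ℝ, x * y ≤ δ⁻¹ * x ^ 2 / 2 + δ * y ^ 2 / 2 := by
      intro x y
      have h5 : 0 ≤ δ⁻¹ * (x - δ * y) ^ 2 := by positivity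
      have h6 : δ⁻¹ * (x - δ * y) ^ 2 = δ⁻¹ * x ^ 2 - 2 * (x * y) + δ * y ^ 2 := by
        field_simp
        ring
      linarith
    have h7 := key ‖a - b‖ ‖a‖
    have h8 := key ‖a - b‖ ‖b‖
    have h9 : 0 ≤ δ * ‖a‖ ^ 2 := by positivity
    have h10 : 0 ≤ δ * ‖b‖ ^ 2 := by positivity
    linarith
  calc _ ≤ ‖⟪a, T a⟫_ℂ - ⟪b, T b⟫_ℂ‖ := h3
    _ ≤ ‖a - b‖ * (M * ‖a‖) + ‖b‖ * (M * ‖a - b‖) := by
        rw [e]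
        exact (norm_add_le _ _).trans (add_le_add h1 h2)
    _ = M * (‖a - b‖ * ‖a‖ + ‖a - b‖ * ‖b‖) := by ring
    _ ≤ _ := by gcongr

namespace Lg

variable (h : Lg μ π lam W Ω q Φ)
include h

theorem int_sq {c : C₀(G, ℂ)} (hc : HasCompactSupport c) {t : ℝ} (ht : 0 ≤ t)
    (h1 : ∫⁻ g, ‖c g‖ₑ ^ 2 ∂μ ≤ ENNReal.ofReal (t ^ 2)) :
    Integrable (fun g => ‖Φ (ltr g c) Ω‖ ^ 2) μ ∧ ∫ g, ‖Φ (ltr g c) Ω‖ ^ 2 ∂μ ≤ t ^ 2 := by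
  have hm : MemLp (fun g => Φ (ltr g c) Ω) 2 μ := (h.sqF hc ht h1).memLp Ω
  have hi : Integrable (fun g => ‖Φ (ltr g c) Ω‖ ^ 2) μ := hm.integrable_norm_pow two_ne_zero
  refine ⟨hi, ?_⟩
  have h2 : ENNReal.ofReal (∫ g, ‖Φ (ltr g c) Ω‖ ^ 2 ∂μ) ≤ ENNReal.ofReal (t ^ 2) := by
    rw [ofReal_integral_eq_lintegral_ofReal hi (Eventually.of_forall fun g => by positivity)]
    have h3 := (h.sqF hc ht h1).le Ω
    rw [h.nΩ, one_pow, mul_one] at h3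
    refine le_trans (le_of_eq ?_) h3
    refine lintegral_congr fun g => ?_
    rw [← ofReal_norm_eq_enorm, ← ENNReal.ofReal_pow (norm_nonneg _)]
  exact (ENNReal.ofReal_le_ofReal_iff (by positivity)).1 h2

/-- **the state depends continuously on the bump** -/
theorem al_close (hE : UP E) {c d : C₀(G, ℂ)} (hc : HasCompactSupport c)
    (hd : HasCompactSupport d) (hcd : HasCompactSupport (d - c)) {s : ℝ} (hs : 0 ≤ s)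
    (h1 : ∫⁻ g, ‖c g‖ₑ ^ 2 ∂μ ≤ ENNReal.ofReal (1 ^ 2))
    (h2 : ∫⁻ g, ‖d g‖ₑ ^ 2 ∂μ ≤ ENNReal.ofReal (1 ^ 2))
    (h3 : ∫⁻ g, ‖(d - c) g‖ₑ ^ 2 ∂μ ≤ ENNReal.ofReal (s ^ 2)) (k : C(P, ℝ)) {δ : ℝ} (hδ : 0 < δ) :
    |al μ Φ Ω E d k - al μ Φ Ω E c k| ≤ ‖k‖ * (δ⁻¹ * s ^ 2 + δ * 2) := by
  obtain ⟨i1, j1⟩ := h.int_sq hc zero_le_one h1
  obtain ⟨i2, j2⟩ := h.int_sq hd zero_le_one h2
  obtain ⟨i3, j3⟩ := h.int_sq hcd hs h3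
  unfold al
  rw [← integral_sub (h.int_dn hE hd zero_le_one h2 k) (h.int_dn hE hc zero_le_one h1 k)]
  have h4 : ∀ g, ‖dn Φ Ω E d k g - dn Φ Ω E c k g‖ ≤
      ‖k‖ * (δ⁻¹ * ‖Φ (ltr g (d - c)) Ω‖ ^ 2 + δ * (‖Φ (ltr g d) Ω‖ ^ 2 + ‖Φ (ltr g c) Ω‖ ^ 2)) := by
    intro g
    have h5 := form_close (E (tp g (cx k))) (M := ‖k‖)
      ((hE.norm_le' _).trans ((norm_tp_le _ _).trans (norm_cx k))) (Φ (ltr g d) Ω)
      (Φ (ltr g c) Ω) hδ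
    rw [Real.norm_eq_abs]
    refine h5.trans (le_of_eq ?_)
    rw [ltr_sub, map_sub, ContinuousLinearMap.sub_apply]
  have i21 : Integrable (fun g => ‖Φ (ltr g d) Ω‖ ^ 2 + ‖Φ (ltr g c) Ω‖ ^ 2) μ := i2.add i1
  have k1 : Integrable (fun g => δ⁻¹ * ‖Φ (ltr g (d - c)) Ω‖ ^ 2) μ := i3.const_mul δ⁻¹
  have k2 : Integrable (fun g => δ * (‖Φ (ltr g d) Ω‖ ^ 2 + ‖Φ (ltr g c) Ω‖ ^ 2)) μ :=
    i21.const_mul δ
  have k3 : Integrable (fun g => ‖k‖ * (δ⁻¹ * ‖Φ (ltr g (d - c)) Ω‖ ^ 2 +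
      δ * (‖Φ (ltr g d) Ω‖ ^ 2 + ‖Φ (ltr g c) Ω‖ ^ 2))) μ := (k1.add k2).const_mul ‖k‖
  have h6 := norm_integral_le_of_norm_le k3 (Eventually.of_forall h4)
  rw [← Real.norm_eq_abs]
  refine h6.trans ?_
  rw [integral_const_mul, integral_add k1 k2, integral_const_mul, integral_const_mul,
    integral_add i2 i1]
  gcongr
  linarith

end Lg

end Vale.Agent.P092.H862
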