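import Vale.Agent.P092.H862.Uq7
import Vale.Agent.P092.H295.Xcr
import Vale.Agent.P092.H715.Gen

/-!
P092, Team D, block [D-XC] (helper862): `H295.UqStmt ℝ` and **`SD.XCStmt ℝ`: the two legs commute**.
-/

set_option linter.all false

open scoped InnerProductSpace ENNReal ZeroAtInfty LinearAlgebra.Projectivization
open Filter Topology ContinuousLinearMap MeasureTheory Measure

namespace Vale.Agent.P092.H862

open Vale.Agent.P092.RC (Cm TRN)
open Vale.Agent.P092.SD (G3 PP CP tau nm act TV XCStmt MM)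
open Vale.Agent.P092.H295

section lg

variable {G Γ : Type} [Group G] [TopologicalSpace G] [IsTopologicalGroup G] [T2Space G]
  [LocallyCompactSpace G] [SecondCountableTopology G] [MeasurableSpace G] [BorelSpace G] [Group Γ]
variable {K : Type} [NormedAddCommGroup K] [InnerProductSpace ℂ K] [CompleteSpace K]
variable {μ : Measure G} {π : G →* (K →L[ℂ] K)} {lam : Γ →* (K →L[ℂ] K)}
  {W : Set (K →L[ℂ] K)} {Ω : K} {q : Γ →* G} {Φ : C₀(G, ℂ) →⋆ₙₐ[ℂ] (K →L[ℂ] K)}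

/-- the `L²` identity as an identity of lower integrals -/
theorem sq_lint [μ.IsHaarMeasure] [μ.IsMulRightInvariant] (hnd : ND Φ) (c : C₀(G, ℂ))
    (hc : HasCompactSupport c) (ξ : K) :
    ∫⁻ g, ‖Φ (ltr g c) ξ‖ₑ ^ 2 ∂μ = (∫⁻ g, ‖c g‖ₑ ^ 2 ∂μ) * ‖ξ‖ₑ ^ 2 := by
  have h1 := H295.sq_int μ hnd c hc ξ
  have i1 := H295.integrable_sq μ hnd c hc ξ
  have e1 : ∫⁻ g, ‖Φ (ltr g c) ξ‖ₑ ^ 2 ∂μ = ENNReal.ofReal (∫ g, ‖Φ (ltr g c) ξ‖ ^ 2 ∂μ) := by
    rw [ofReal_integral_eq_lintegral_ofReal i1 (Eventually.of_forall fun g => by positivity)]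
    refine lintegral_congr fun g => ?_
    rw [← ofReal_norm_eq_enorm, ← ENNReal.ofReal_pow (norm_nonneg _)]
  have hc1 : Continuous fun g => ‖c g‖ := by fun_prop
  have hc2 : HasCompactSupport fun g => ‖c g‖ := hc.norm
  have hc3 : Continuous fun g => ‖c g‖ ^ 2 := by fun_prop
  have hc4 : HasCompactSupport fun g => ‖c g‖ ^ 2 :=
    hc2.comp_left (g := fun t : ℝ => t ^ 2) (by simp)
  have i2 : Integrable (fun g => ‖c g‖ ^ 2) μ := hc3.integrable_of_hasCompactSupport hc4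
  have e2 : ∫⁻ g, ‖c g‖ₑ ^ 2 ∂μ = ENNReal.ofReal (H295.sq μ c) := by
    unfold H295.sq
    rw [ofReal_integral_eq_lintegral_ofReal i2 (Eventually.of_forall fun g => by positivity)]
    refine lintegral_congr fun g => ?_
    rw [← ofReal_norm_eq_enorm, ← ENNReal.ofReal_pow (norm_nonneg _)]
  rw [e1, h1, e2, ENNReal.ofReal_mul (H295.sq_nonneg' μ c), ENNReal.ofReal_pow (norm_nonneg _),
    ofReal_norm_eq_enorm]

theorem lg_of [μ.IsHaarMeasure] [μ.IsMulRightInvariant] (hP : RC.Pic π lam W Ω)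
    (tv : ∀ Y, Cm W Y → (∀ γ, Y * lam γ = lam γ * Y) → ∀ h, ⟪π h Ω, Y (π h Ω)⟫_ℂ = ⟪Ω, Y Ω⟫_ℂ)
    (hnd : ND Φ) (cm : ∀ c, Cm W (Φ c)) (cov : ∀ γ c, lam γ * Φ c * lam γ⁻¹ = Φ (ltr (q γ) c))
    (pcov : ∀ h c, π h * Φ c * π h⁻¹ = Φ (rtr h c)) : Lg μ π lam W Ω q Φ where
  adjP := hP.adjP
  adjL := hP.adjL
  Wadj := hP.Wadj
  nΩ := hP.nΩ
  tr_adj := hP.tr_adj
  tr_zero := hP.tr_zero
  tv := tv
  cm := cm
  cov := cov
  pcov := pcov
  sq := sq_lint hnd

end lg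

/-- **[XC-3]** -/
theorem uqStmt : UqStmt ℝ := by
  intro Γ K _ _ _ _ _ π lam W Ω q E F Q hP hT hf hQ a
  haveI : LocallyCompactSpace (G3 ℝ) := H303.locallyCompact_SL
  haveI : SecondCountableTopology (G3 ℝ) := H303.secondCountable_SL
  letI : MeasurableSpace (G3 ℝ) := borel _
  haveI : BorelSpace (G3 ℝ) := ⟨rfl⟩
  haveI : (haar : Measure (G3 ℝ)).IsMulRightInvariant := rightInv H899.commutator_eq_top _
  obtain ⟨u, hua, hu⟩ := H715.Xc6.exists_rg a
  refine ⟨{u}, ?_, ?_, ?_⟩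
  · rintro _ rfl _ rfl
    exact Commute.refl _
  · rintro _ rfl
    exact hua
  intro E' h1 hks _ hcm hcov hcom
  have hL : Lg (haar : Measure (G3 ℝ)) π lam W Ω q Q :=
    lg_of hP (fun Y hY hY' h => hT Y ⟨hY, hY'⟩ h) hQ.nd hQ.cm
      (fun γ c => hQ.cov γ c _ fun x => rfl) (fun g c => hQ.pcov g c _ fun x => rfl)
  have hM : Mp π lam W q u E' := by
    refine ⟨⟨h1, hks⟩, hcm, fun f => ?_, hcov⟩
    have h2 := hcom u rfl f
    have h3 : π u⁻¹ * π u = 1 := by rw [← map_mul, inv_mul_cancel, map_one]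
    calc π u * E' f = π u * E' f * (π u⁻¹ * π u) := by rw [h3, mul_one]
      _ = (π u * E' f * π u⁻¹) * π u := by simp only [mul_assoc]
      _ = E' f * π u := by rw [h2]
  have hfin : ∀ r : ℝ, {γ | ∀ i j, ‖(q γ).1 i j‖ ≤ r}.Finite := by
    intro r
    refine (hf (max r 0)).subset fun γ hγ => ?_
    exact (pi_norm_le_iff_of_nonneg (le_max_right _ _)).2 fun i =>
      (pi_norm_le_iff_of_nonneg (le_max_right _ _)).2 fun j => (hγ i j).trans (le_max_left _ _)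
  exact uq hL hQ.nd
    (fun C hC => H715.Xc6.overlap_tsum q (fun C hC => H715.Xc6.fin_compact q hfin hC) hC) hu hM
    (fun f => E a f) (fun f b b' hb => hQ.mulE a f b b' hb)

/-- **[D-XC]: the two legs commute** -/
theorem xcStmt : XCStmt ℝ :=
  xc_of uqStmt fun π lam W q E F Q h T hT ψ => H715.Gen.gen h hT ψ

end Vale.Agent.P092.H862
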