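import Vale.Agent.P092.H862.UqF
import Vale.Agent.P092.H862.XcLegs

/-!
P092, Team D, all amplifications (helper862): the cross-leg step from the fields of the two legs,
with a finite family of vectors in leg 1 (`RC.PicF`, `SD.TVF`); of leg 2 only the adjoints and
`SD.Cls` are used.
-/

set_option linter.all false

open scoped InnerProductSpace ENNReal ZeroAtInfty LinearAlgebra.Projectivization
open Filter Topology ContinuousLinearMap MeasureTheory Measure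

namespace Vale.Agent.P092.H862

open Vale.Agent.P092.RC (Cm TRNF PicF)
open Vale.Agent.P092.SD (G3 PP CP tau nm TVF Cls)
open Vale.Agent.P092.H295

theorem picU_of {Γ K ι : Type} [Group Γ] [NormedAddCommGroup K] [InnerProductSpace ℂ K]
    [CompleteSpace K] [Fintype ι] {π : G3 ℝ →* (K →L[ℂ] K)} {lam : Γ →* (K →L[ℂ] K)}
    {W : Set (K →L[ℂ] K)} {Ω : ι → K} (hP : PicF π lam W Ω) (hT : TVF π lam W Ω) :
    PicU π lam W Ω where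
  adjP := hP.adjP
  adjL := hP.adjL
  Wadj := hP.Wadj
  nΩ := hP.nΩ
  tr_adj := hP.tr_adj
  tr_zero := hP.tr_zero
  tv Y hY hl h := hT Y ⟨hY, hl⟩ h

/-- **[XC-3] for a family of vectors** -/
theorem uniqF {Γ K ι : Type} [Group Γ] [Countable Γ] [NormedAddCommGroup K]
    [InnerProductSpace ℂ K] [CompleteSpace K] [Fintype ι] {π : G3 ℝ →* (K →L[ℂ] K)}
    {lam : Γ →* (K →L[ℂ] K)} {W : Set (K →L[ℂ] K)} {Ω : ι → K} {q : Γ →* G3 ℝ}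
    {E F : PP ℝ → (CP ℝ →⋆ₐ[ℂ] (K →L[ℂ] K))} {Q : C₀(G3 ℝ, ℂ) →⋆ₙₐ[ℂ] (K →L[ℂ] K)}
    (hP : PicU π lam W Ω) (hf : ∀ C : ℝ, {γ : Γ | nm (q γ) ≤ C}.Finite)
    (hQ : Cls π lam W q E F Q) (a : PP ℝ) :
    ∃ N : Set (G3 ℝ), (∀ u ∈ N, ∀ v ∈ N, Commute u v) ∧ (∀ u ∈ N, u • a = a) ∧
      Uniq π lam W q N (E a) := by
  haveI : LocallyCompactSpace (G3 ℝ) := H303.locallyCompact_SL
  haveI : SecondCountableTopology (G3 ℝ) := H303.secondCountable_SL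
  letI : MeasurableSpace (G3 ℝ) := borel _
  haveI : BorelSpace (G3 ℝ) := ⟨rfl⟩
  haveI : (haar : Measure (G3 ℝ)).IsMulRightInvariant := rightInv H899.commutator_eq_top _
  obtain ⟨u, hua, hu⟩ := H715.Xc6.exists_rg a
  refine ⟨{u}, ?_, ?_, ?_⟩
  · rintro _ rfl _ rfl
    exact Commute.refl _
  · rintro _ rfl
    exact hua
  intro E' h1 hks _ hcm hcov hcom
  have hL : LgF (haar : Measure (G3 ℝ)) π lam W Ω q Q :=
    { adjP := hP.adjP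
      adjL := hP.adjL
      Wadj := hP.Wadj
      nΩ := hP.nΩ
      tr_adj := hP.tr_adj
      tr_zero := hP.tr_zero
      tv := hP.tv
      cm := hQ.cm
      cov := fun γ c => hQ.cov γ c _ fun x => rfl
      pcov := fun g c => hQ.pcov g c _ fun x => rfl
      sq := sq_lint hQ.nd }
  have hM : Mp π lam W q u E' := by
    refine ⟨⟨h1, hks⟩, hcm, fun f => ?_, hcov⟩
    have h2 := hcom u rfl f
    have h3 : π u⁻¹ * π u = 1 := by rw [← map_mul, inv_mul_cancel, map_one]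
    calc π u * E' f = π u * E' f * (π u⁻¹ * π u) := by rw [h3, mul_one]
      _ = (π u * E' f * π u⁻¹) * π u := by simp only [mul_assoc]
      _ = E' f * π u := by rw [h2]
  have hfin : ∀ r : ℝ, {γ | ∀ i j, ‖(q γ).1 i j‖ ≤ r}.Finite := by
    intro r
    refine (hf (max r 0)).subset fun γ hγ => ?_
    exact (pi_norm_le_iff_of_nonneg (le_max_right _ _)).2 fun i =>
      (pi_norm_le_iff_of_nonneg (le_max_right _ _)).2 fun j => (hγ i j).trans (le_max_left _ _)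
  exact uqF hL hQ.nd
    (fun C hC => H715.Xc6.overlap_tsum q (fun C hC => H715.Xc6.fin_compact q hfin hC) hC) hu hM
    (fun f => E a f) (fun f b b' hb => hQ.mulE a f b b' hb)

/-- **[D-XC] for all amplifications, weakest form** -/
theorem xc_legsU {Γ₁ Γ₂ K ι : Type} [Group Γ₁] [Countable Γ₁] [Group Γ₂] [NormedAddCommGroup K]
    [InnerProductSpace ℂ K] [CompleteSpace K] [Fintype ι] {π : G3 ℝ →* (K →L[ℂ] K)}
    {lam₁ : Γ₁ →* (K →L[ℂ] K)} {lam₂ : Γ₂ →* (K →L[ℂ] K)} {X : Set (K →L[ℂ] K)} {Ω : ι → K}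
    {q₁ : Γ₁ →* G3 ℝ} {q₂ : Γ₂ →* G3 ℝ} {E₁ F₁ E₂ F₂ : PP ℝ → (CP ℝ →⋆ₐ[ℂ] (K →L[ℂ] K))}
    {Q₁ Q₂ : C₀(G3 ℝ, ℂ) →⋆ₙₐ[ℂ] (K →L[ℂ] K)}
    (hP : PicU π lam₁ (X ∪ Set.range lam₂) Ω)
    (h₂ : ∀ γ, adjoint (lam₂ γ) = lam₂ γ⁻¹) (hf : ∀ C : ℝ, {γ : Γ₁ | nm (q₁ γ) ≤ C}.Finite)
    (hQ₁ : Cls π lam₁ (X ∪ Set.range lam₂) q₁ E₁ F₁ Q₁)
    (hQ₂ : Cls π lam₂ (X ∪ Set.range lam₁) q₂ E₂ F₂ Q₂) (ψ φ : C₀(G3 ℝ, ℂ)) :
    Commute (Q₁ ψ) (Q₂ φ) := by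
  haveI : LocallyCompactSpace (G3 ℝ) := H303.locallyCompact_SL
  haveI : SecondCountableTopology (G3 ℝ) := H303.secondCountable_SL
  letI : MeasurableSpace (G3 ℝ) := borel _
  haveI : BorelSpace (G3 ℝ) := ⟨rfl⟩
  haveI : (haar : Measure (G3 ℝ)).IsMulRightInvariant := rightInv H899.commutator_eq_top _
  refine (genStmt π lam₁ _ q₁ E₁ F₁ Q₁ hQ₁ (Q₂ φ) (fun a f => ?_) ψ).symm
  obtain ⟨N, hN, hNa, hu⟩ := uniqF hP hf hQ₁ a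
  exact (commute_of_uniq (q₂ := q₂) (ι₂ := MonoidHom.id _) (haar : Measure (G3 ℝ))
    (pt_of_cls hQ₁ a) hQ₂.nd hQ₂.cm
    (fun γ ψ => hQ₂.cov γ ψ _ fun x => rfl) (fun g ψ => hQ₂.pcov g ψ _ fun x => rfl)
    hP.adjP hP.adjL h₂ N hN hNa hu f φ).symm

/-- **[D-XC] for all amplifications**: `RC.PicF` and `SD.TVF` in leg 1; of leg 2 only the adjoints and
`SD.Cls`. -/
theorem xc_legsF {Γ₁ Γ₂ K ι : Type} [Group Γ₁] [Countable Γ₁] [Group Γ₂] [NormedAddCommGroup K]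
    [InnerProductSpace ℂ K] [CompleteSpace K] [Fintype ι] {π : G3 ℝ →* (K →L[ℂ] K)}
    {lam₁ : Γ₁ →* (K →L[ℂ] K)} {lam₂ : Γ₂ →* (K →L[ℂ] K)} {X : Set (K →L[ℂ] K)} {Ω : ι → K}
    {q₁ : Γ₁ →* G3 ℝ} {q₂ : Γ₂ →* G3 ℝ} {E₁ F₁ E₂ F₂ : PP ℝ → (CP ℝ →⋆ₐ[ℂ] (K →L[ℂ] K))}
    {Q₁ Q₂ : C₀(G3 ℝ, ℂ) →⋆ₙₐ[ℂ] (K →L[ℂ] K)}
    (hP : PicF π lam₁ (X ∪ Set.range lam₂) Ω) (hT : TVF π lam₁ (X ∪ Set.range lam₂) Ω)
    (h₂ : ∀ γ, adjoint (lam₂ γ) = lam₂ γ⁻¹) (hf : ∀ C : ℝ, {γ : Γ₁ | nm (q₁ γ) ≤ C}.Finite)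
    (hQ₁ : Cls π lam₁ (X ∪ Set.range lam₂) q₁ E₁ F₁ Q₁)
    (hQ₂ : Cls π lam₂ (X ∪ Set.range lam₁) q₂ E₂ F₂ Q₂) (ψ φ : C₀(G3 ℝ, ℂ)) :
    Commute (Q₁ ψ) (Q₂ φ) :=
  xc_legsU (picU_of hP hT) h₂ hf hQ₁ hQ₂ ψ φ

end Vale.Agent.P092.H862
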